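import Crest.Agent.X261.Pole2.One
import Crest.Agent.X261.BT.MxB
import Crest.Agent.R273.FIa0_597
import Crest.Agent.R273.FS_333
import Crest.Agent.R273.Map_835

/-!
# Row 261, package Pole2 (helper32), file `Mod`: the radial model `ell w = Fm ‖w‖²` on `ℂ^p`

* `hess_ell`, `lvE_ell`, `det_hess_ell`; `mu = mh ell` is supported in `1 ≤ ‖w‖² ≤ 2`;
* `m1 p = ∫ mu`, `k1 p = m1 p / (p+1)`, `int_gT_mu`, `int_axis`;
* `int_step` : `∫ (ell (P u) - ell u) mu ≤ k1 ∑ (t_i² - 1) + C δ²` for diagonal `P`;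
* `mdl c A y K w = c ell (A (w - y)) + K`, `int_mdl` : linear change of variables.
-/

set_option autoImplicit false

open Set Filter Topology Complex MeasureTheory Metric
open scoped ContDiff Matrix ComplexConjugate ComplexOrder InnerProductSpace

namespace Crest.Agent.X261.Pole2

open Crest.Agent.R275.Geo Crest.Agent.R275.EDR890
open Crest.Agent.R273 Crest.Agent.R273.Hess_333 Crest.Agent.R273.HessB_333
open Crest.Agent.R273.Map_835 (mt mt_apply)
open Crest.Agent.R281.Rich_710 (cj cj_jc qf_hess)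
open Crest.Agent.R257.HoB_843 (lvE lvE_comp)
open Crest.Agent.R257.Glue2_101 (lvE_add lvE_const_mul lvE_const)
open Crest.Agent.X261.BT

noncomputable section

variable {p : ℕ}

theorem hess_hs {m : ℕ} (u : Cn m → ℝ) (z : Cn m) (a b : Fin m) :
    hess u z a b = Levi_145.hs (Levi_145.cx u) z a b := by
  rw [hess_apply]
  simp only [Levi_145.hs, Crest.Agent.R275.OmT75.dj, wd, wdL, cI_false]
  rw [neg_smul, ← sub_eq_add_neg]
  rfl

/-- chain rule for the complex Hessian -/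
theorem hess_pull {n m : ℕ} {u : Cn m → ℝ} {T : Cn n → Cn m} {z : Cn n}
    (hT : AnalyticAt ℂ T z) (hu : ContDiffAt ℝ ∞ u (T z)) :
    hess (fun w => u (T w)) z =
      (mt (fderiv ℂ T z))ᵀ * hess u (T z) * (mt (fderiv ℂ T z)).map conj := by
  ext a b
  rw [hess_hs]
  have e : Levi_145.cx (fun w => u (T w)) = fun w => (Levi_145.cx u) (T w) := rfl
  rw [e, Levi_145.hs_comp hT (Levi_145.cx_c2 (hu.of_le (by norm_cast)))]
  simp only [Matrix.mul_apply, Matrix.transpose_apply, Matrix.map_apply, Finset.sum_mul, hess_hs]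
  rw [Finset.sum_comm]
  refine Finset.sum_congr rfl fun c _ => Finset.sum_congr rfl fun d _ => ?_
  show _ = (fderiv ℂ T z (EuclideanSpace.single a 1)) d * _ *
    conj ((fderiv ℂ T z (EuclideanSpace.single b 1)) c)
  ring

theorem nsq_eq : (fun w : Cn p => ‖w‖ ^ 2) = FS_333.sq fun (w : Cn p) (k : Fin p) => w k :=
  funext fun w => by rw [EuclideanSpace.norm_sq_eq]; rfl

theorem fderiv_coord (k a : Fin p) (z : Cn p) :
    fderiv ℂ (fun w : Cn p => w k) z (EuclideanSpace.single a 1) = if k = a then 1 else 0 := by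
  have : (fun w : Cn p => w k) = (EuclideanSpace.proj k : Cn p →L[ℂ] ℂ) := rfl
  rw [this, ContinuousLinearMap.fderiv]
  simp [PiLp.single_apply]

theorem diff_coord (k : Fin p) : DifferentiableOn ℂ (fun w : Cn p => w k) univ :=
  (EuclideanSpace.proj k : Cn p →L[ℂ] ℂ).differentiable.differentiableOn

theorem hess_nsq (z : Cn p) : hess (fun w : Cn p => ‖w‖ ^ 2) z = 1 := by
  ext a b
  rw [nsq_eq, FS_333.hess_sq isOpen_univ diff_coord (mem_univ z)]
  simp only [fderiv_coord, Matrix.one_apply]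
  rw [Finset.sum_eq_single a (fun k _ hk => by simp [hk]) (by simp)]
  by_cases h : a = b <;> simp [h]

theorem wd_nsq (z : Cn p) (b : Fin p) : wd (true, b) (cu fun w : Cn p => ‖w‖ ^ 2) z = z b := by
  rw [nsq_eq, FS_333.wd_sq isOpen_univ diff_coord (mem_univ z)]
  simp [fderiv_coord]

theorem wd_nsq' (z : Cn p) (a : Fin p) :
    wd (false, a) (cu fun w : Cn p => ‖w‖ ^ 2) z = conj (z a) := by
  rw [nsq_eq, FS_333.wd_sq' isOpen_univ diff_coord (mem_univ z)]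
  simp [fderiv_coord]

theorem hess_cst {n : ℕ} (c : ℝ) (z : Cn n) : hess (fun _ : Cn n => c) z = 0 := by
  ext a b
  have : wd (true, b) (cu fun _ : Cn n => c) = fun _ => 0 := funext fun w => wd_const _ _ _
  rw [hess_apply, this, wd_const]
  rfl

theorem sm_nsq : ContDiff ℝ ∞ fun w : Cn p => ‖w‖ ^ 2 := contDiff_norm_sq ℝ

/-- the radial model -/
def ell (w : Cn p) : ℝ := Fm (‖w‖ ^ 2)

theorem ell_smooth : ContDiff ℝ ∞ (ell : Cn p → ℝ) := Fm_smooth.comp sm_nsq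

theorem hess_ell (w : Cn p) : hess ell w = (g1 (‖w‖ ^ 2) : ℂ) • (1 : MC p) +
    (g3 (‖w‖ ^ 2) : ℂ) • Matrix.vecMulVec (fun a => conj (w a)) fun b => w b := by
  ext a b
  have h := FIa0_597.hess_comp_real (φ := Fm) (φ' := g1) (u := fun w : Cn p => ‖w‖ ^ 2) (z := w)
    sm_nsq.contDiffAt (Eventually.of_forall Fm_deriv) (g1_deriv _) a b
  rw [hess_nsq, wd_nsq, wd_nsq'] at h
  exact h

theorem lvE_ell (w v : Cn p) :
    lvE ell w v = g1 (‖w‖ ^ 2) * ‖v‖ ^ 2 + g3 (‖w‖ ^ 2) * ‖⟪w, v⟫_ℂ‖ ^ 2 := by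
  rw [← cj_jc v, ← qf_hess ell_smooth.contDiffAt, cj_jc, hess_ell, SerD_945.qf, Matrix.add_mulVec,
    Matrix.smul_mulVec, Matrix.smul_mulVec, Matrix.one_mulVec, dotProduct_add, dotProduct_smul,
    dotProduct_smul, Matrix.vecMulVec_mulVec, Complex.add_re, smul_eq_mul, smul_eq_mul,
    Complex.re_ofReal_mul, Complex.re_ofReal_mul]
  have h1 : star (R281.Rich_710.jc v) ⬝ᵥ R281.Rich_710.jc v = ((‖v‖ ^ 2 : ℝ) : ℂ) := by
    rw [EuclideanSpace.norm_sq_eq]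
    simp [dotProduct, R281.Rich_710.jc, Complex.mul_conj, Complex.normSq_eq_norm_sq]
  have h2 : star (R281.Rich_710.jc v) ⬝ᵥ (fun a => conj (w a)) = ⟪w, v⟫_ℂ := by
    simp [dotProduct, R281.Rich_710.jc, PiLp.inner_apply]
  have h3 : (fun b => w b) ⬝ᵥ R281.Rich_710.jc v = conj ⟪w, v⟫_ℂ := by
    simp [dotProduct, R281.Rich_710.jc, PiLp.inner_apply, mul_comm]
  rw [h1, dotProduct_smul, h2, h3, Complex.ofReal_re, MulOpposite.smul_eq_mul_unop,
    MulOpposite.unop_op, Complex.mul_conj, Complex.ofReal_re, Complex.normSq_eq_norm_sq]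

theorem lvE_ell_bd (w v : Cn p) :
    0 ≤ lvE ell w v ∧ lvE ell w v ≤ L0 / max (‖w‖ ^ 2) 1 * ‖v‖ ^ 2 := by
  rw [lvE_ell]
  have h1 : ‖⟪w, v⟫_ℂ‖ ^ 2 ≤ ‖w‖ ^ 2 * ‖v‖ ^ 2 := by
    rw [← mul_pow]; exact pow_le_pow_left₀ (norm_nonneg _) (norm_inner_le_norm w v) 2
  have h2 := g1_add (‖w‖ ^ 2)
  have h3 := g2_nonneg (‖w‖ ^ 2)
  have h4 := g1_nonneg (‖w‖ ^ 2)
  have h5 := g2_le (‖w‖ ^ 2)
  have h6 : g1 (‖w‖ ^ 2) ≤ L0 / max (‖w‖ ^ 2) 1 :=
    (g1_le _).trans (div_le_div_of_nonneg_right one_le_L0 (by positivity))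
  have h7 : 0 ≤ ‖v‖ ^ 2 := by positivity
  have h8 : 0 ≤ ‖⟪w, v⟫_ℂ‖ ^ 2 := by positivity
  have e : g2 (‖w‖ ^ 2) * ‖v‖ ^ 2 = g1 (‖w‖ ^ 2) * ‖v‖ ^ 2 + g3 (‖w‖ ^ 2) * (‖w‖ ^ 2 * ‖v‖ ^ 2) := by
    rw [← h2]; ring
  rcases le_total 0 (g3 (‖w‖ ^ 2)) with h | h
  · have := mul_le_mul_of_nonneg_left h1 h
    exact ⟨by positivity, by nlinarith [mul_le_mul_of_nonneg_right h5 h7]⟩
  · have := mul_le_mul_of_nonpos_left h1 h
    exact ⟨by nlinarith [mul_nonneg h3 h7],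
      by nlinarith [mul_le_mul_of_nonneg_right h6 h7, mul_nonneg_of_nonpos_of_nonpos h h]⟩

theorem det_hess_ell (hp : 1 ≤ p) (w : Cn p) :
    (hess ell w).det = ((g1 (‖w‖ ^ 2) ^ (p - 1) * g2 (‖w‖ ^ 2) : ℝ) : ℂ) := by
  rw [hess_ell]
  rcases le_or_gt (‖w‖ ^ 2) 1 with h | h
  · have : Nonempty (Fin p) := ⟨⟨0, hp⟩⟩
    rw [g1_zero h, g3_zero h, g2_zero_of_le h]
    simp
  have h0 : g1 (‖w‖ ^ 2) ≠ 0 := (div_pos (gT_pos h) (by linarith)).ne'
  have h0' : (g1 (‖w‖ ^ 2) : ℂ) ≠ 0 := by exact_mod_cast h0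
  have e : (g1 (‖w‖ ^ 2) : ℂ) • (1 : MC p) +
      (g3 (‖w‖ ^ 2) : ℂ) • Matrix.vecMulVec (fun a => conj (w a)) (fun b => w b) =
      (g1 (‖w‖ ^ 2) : ℂ) • (1 + Matrix.replicateCol Unit
        (fun a => (g3 (‖w‖ ^ 2) : ℂ) / (g1 (‖w‖ ^ 2) : ℂ) * conj (w a)) *
        Matrix.replicateRow Unit fun b => w b) := by
    rw [← Matrix.vecMulVec_eq]
    ext a b
    simp only [Matrix.add_apply, Matrix.smul_apply, Matrix.vecMulVec_apply, smul_eq_mul]
    field_simp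
  have h1 : (fun b => w b) ⬝ᵥ (fun a => (g3 (‖w‖ ^ 2) : ℂ) / (g1 (‖w‖ ^ 2) : ℂ) * conj (w a)) =
      (g3 (‖w‖ ^ 2) : ℂ) / (g1 (‖w‖ ^ 2) : ℂ) * ((‖w‖ ^ 2 : ℝ) : ℂ) := by
    have h2 : ((‖w‖ ^ 2 : ℝ) : ℂ) = ∑ a, w a * conj (w a) := by
      rw [EuclideanSpace.norm_sq_eq]
      simp [Complex.mul_conj, Complex.normSq_eq_norm_sq]
    rw [h2, Finset.mul_sum, dotProduct]
    exact Finset.sum_congr rfl fun a _ => by ring
  rw [e, Matrix.det_smul, Matrix.det_one_add_replicateCol_mul_replicateRow, h1, ← g1_add,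
    Fintype.card_fin]
  obtain ⟨q, rfl⟩ : ∃ q, p = q + 1 := ⟨p - 1, by omega⟩
  generalize ‖w‖ ^ 2 = ρ at *
  push_cast
  field_simp
  ring

/-- the Monge-Ampere density of the model -/
def mu (w : Cn p) : ℝ := mh (fun _ => ell) w

theorem mu_eq (hp : 1 ≤ p) (w : Cn p) :
    mu w = p.factorial * (g1 (‖w‖ ^ 2) ^ (p - 1) * g2 (‖w‖ ^ 2)) := by
  rw [mu, mh_same, det_hess_ell hp, Complex.ofReal_re]

theorem mu_cont : Continuous (mu : Cn p → ℝ) := cont_mh fun _ => ell_smooth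

theorem mu_nonneg (w : Cn p) : 0 ≤ mu w :=
  mh_nonneg fun _ => (psd_iff ell_smooth.contDiffAt).2 fun v => (lvE_ell_bd w v).1

theorem mu_zero (hp : 1 ≤ p) {w : Cn p} (h : 2 ≤ ‖w‖ ^ 2) : mu w = 0 := by
  rw [mu_eq hp, g2_zero_of_ge h]; simp

theorem mu_cpt (hp : 1 ≤ p) : HasCompactSupport (mu : Cn p → ℝ) :=
  HasCompactSupport.intro (isCompact_closedBall 0 2) fun w hw => mu_zero hp (by
    rw [mem_closedBall_zero_iff, not_le] at hw
    nlinarith)

theorem int_mu (hp : 1 ≤ p) {φ : Cn p → ℝ} (hφ : Continuous φ) :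
    Integrable fun w => φ w * mu w := int_r hφ mu_cont (mu_cpt hp)

theorem int_pow_mu (hp : 1 ≤ p) (j : ℕ) : ∫ w : Cn p, gT (‖w‖ ^ 2) ^ j * mu w =
    p.factorial * p * (volume : Measure (Cn p)).real (ball 0 1) / (p + j) := by
  have : Nonempty (Fin p) := ⟨⟨0, hp⟩⟩
  have hd : Module.finrank ℝ (Cn p) = 2 * p := by
    rw [finrank_real_of_complex, finrank_euclideanSpace_fin]
  have h1 := integral_fun_norm_addHaar (volume : Measure (Cn p)) fun r : ℝ =>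
    gT (r ^ 2) ^ j * (p.factorial * (g1 (r ^ 2) ^ (p - 1) * g2 (r ^ 2)))
  simp only [mu_eq hp]
  rw [h1, hd]
  obtain ⟨q, rfl⟩ : ∃ q, p = q + 1 := ⟨p - 1, by omega⟩
  have hq : (0 : ℝ) < q + j + 1 := by positivity
  have h2 : ∀ r : ℝ, HasDerivAt (fun r : ℝ => gT (r ^ 2) ^ (q + j + 1))
      (((q + j + 1 : ℕ) : ℝ) * gT (r ^ 2) ^ (q + j) * (g2 (r ^ 2) * (2 * r))) r := fun r => by
    have h3 : HasDerivAt (fun r : ℝ => r ^ 2) (2 * r) r := by simpa using hasDerivAt_pow 2 r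
    exact ((gT_deriv (r ^ 2)).comp r h3).fun_pow (q + j + 1)
  have h3 := integral_Ioi_of_hasDerivAt_of_nonneg' (a := 0) (l := 1) (fun r _ => h2 r)
    (fun r hr => by
      have := gT_nonneg (r ^ 2); have := g2_nonneg (r ^ 2); have : 0 < r := hr; positivity)
    (tendsto_const_nhds.congr' (by
      filter_upwards [eventually_ge_atTop 2] with r hr
      rw [gT_one (by nlinarith), one_pow]))
  rw [gT_zero (by norm_num), zero_pow (by omega), sub_zero] at h3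
  have h4 : ∀ r : ℝ, r ^ (2 * (q + 1) - 1) • (gT (r ^ 2) ^ j *
      (((q + 1).factorial : ℝ) * (g1 (r ^ 2) ^ (q + 1 - 1) * g2 (r ^ 2)))) =
      ((q + 1).factorial / (2 * (q + j + 1))) *
      (((q + j + 1 : ℕ) : ℝ) * gT (r ^ 2) ^ (q + j) * (g2 (r ^ 2) * (2 * r))) := fun r => by
    rw [show 2 * (q + 1) - 1 = 2 * q + 1 by omega, Nat.add_sub_cancel, pow_add (gT _),
      smul_eq_mul]
    nth_rewrite 2 [← g1_mul]
    push_cast
    field_simp
    ring
  simp only [h4]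
  rw [integral_const_mul, h3, nsmul_eq_mul, smul_eq_mul]
  push_cast
  field_simp
  ring

/-- the mass of the model -/
def m1 (p : ℕ) : ℝ := ∫ w : Cn p, mu w

/-- the energy constant of the model -/
def k1 (p : ℕ) : ℝ := m1 p / (p + 1)

theorem m1_eq (hp : 1 ≤ p) :
    m1 p = p.factorial * (volume : Measure (Cn p)).real (ball 0 1) := by
  have h := int_pow_mu hp 0
  have : (p : ℝ) ≠ 0 := by exact_mod_cast (by omega : p ≠ 0)
  simp only [pow_zero, one_mul, Nat.cast_zero, add_zero] at h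
  rw [m1, h]
  field_simp

theorem m1_pos (hp : 1 ≤ p) : 0 < m1 p := by
  rw [m1_eq hp]
  exact mul_pos (by exact_mod_cast p.factorial_pos)
    (ENNReal.toReal_pos (measure_ball_pos _ _ one_pos).ne' measure_ball_lt_top.ne)

theorem k1_pos (hp : 1 ≤ p) : 0 < k1 p := div_pos (m1_pos hp) (by positivity)

theorem m1_k1 (p : ℕ) : m1 p = (p + 1) * k1 p := by rw [k1]; field_simp

theorem int_gT_mu (hp : 1 ≤ p) : ∫ w : Cn p, gT (‖w‖ ^ 2) * mu w = p * k1 p := by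
  have h := int_pow_mu hp 1
  simp only [pow_one, Nat.cast_one] at h
  rw [h, k1, m1_eq hp]
  field_simp

theorem cont_axis (i : Fin p) : Continuous fun w : Cn p => g1 (‖w‖ ^ 2) * ‖w i‖ ^ 2 :=
  (g1_smooth.continuous.comp sm_nsq.continuous).mul (by fun_prop)

theorem int_axis (hp : 1 ≤ p) (i : Fin p) :
    ∫ w : Cn p, g1 (‖w‖ ^ 2) * ‖w i‖ ^ 2 * mu w = k1 p := by
  have h1 : ∀ j : Fin p, ∫ w : Cn p, g1 (‖w‖ ^ 2) * ‖w j‖ ^ 2 * mu w =
      ∫ w : Cn p, g1 (‖w‖ ^ 2) * ‖w i‖ ^ 2 * mu w := fun j => by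
    let e : Cn p ≃ₗᵢ[ℝ] Cn p := LinearIsometryEquiv.piLpCongrLeft 2 ℝ ℂ (Equiv.swap i j)
    rw [← e.measurePreserving.integral_comp e.toHomeomorph.measurableEmbedding]
    refine integral_congr_ae (Eventually.of_forall fun w => ?_)
    have h2 : (e w) j = w i := by simp [e, LinearIsometryEquiv.piLpCongrLeft_apply]
    simp only [mu_eq hp, e.norm_map, h2]
  have h2 : ∑ j : Fin p, ∫ w : Cn p, g1 (‖w‖ ^ 2) * ‖w j‖ ^ 2 * mu w = p * k1 p := by
    rw [← integral_finsetSum _ fun j _ => int_mu hp (cont_axis j), ← int_gT_mu hp]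
    refine integral_congr_ae (Eventually.of_forall fun w => ?_)
    simp only [← Finset.sum_mul, ← Finset.mul_sum]
    rw [← EuclideanSpace.norm_sq_eq, g1_mul]
  simp only [h1, Finset.sum_const, Finset.card_univ, Fintype.card_fin, nsmul_eq_mul] at h2
  exact mul_left_cancel₀ (by exact_mod_cast (by omega : p ≠ 0)) h2

/-- one step of a diagonal deformation -/
theorem int_step (hp : 1 ≤ p) {P : Cn p → Cn p} (hP : Continuous P) {t : Fin p → ℝ}
    (h : ∀ u i, ‖P u i‖ ^ 2 = t i * ‖u i‖ ^ 2) {δ : ℝ} (hδ : ∀ i, |t i - 1| ≤ δ) :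
    ∫ u, (ell (P u) - ell u) * mu u ≤ k1 p * ∑ i, (t i - 1) + 4 * L0 * m1 p * δ ^ 2 := by
  have h1 : ∫ u : Cn p, ((∑ i, (t i - 1) * (g1 (‖u‖ ^ 2) * ‖u i‖ ^ 2 * mu u)) +
      4 * L0 * δ ^ 2 * mu u) = k1 p * ∑ i, (t i - 1) + 4 * L0 * m1 p * δ ^ 2 := by
    rw [integral_add (integrable_finsetSum _ fun i _ => (int_mu hp (cont_axis i)).const_mul _)
      (int_mu hp continuous_const),
      integral_finsetSum _ fun i _ => (int_mu hp (cont_axis i)).const_mul _, integral_const_mul]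
    simp only [integral_const_mul, int_axis hp, ← Finset.sum_mul, m1]
    ring
  rw [← h1]
  refine integral_mono (int_mu hp ((ell_smooth.continuous.comp hP).sub ell_smooth.continuous))
    ((integrable_finsetSum _ fun i _ => (int_mu hp (cont_axis i)).const_mul _).add
      (int_mu hp continuous_const)) fun u => ?_
  rcases le_or_gt 2 (‖u‖ ^ 2) with h2 | h2
  · simp [mu_zero hp h2]
  have h3 : ‖P u‖ ^ 2 - ‖u‖ ^ 2 = ∑ i, (t i - 1) * ‖u i‖ ^ 2 := by
    rw [EuclideanSpace.norm_sq_eq, EuclideanSpace.norm_sq_eq, ← Finset.sum_sub_distrib]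
    exact Finset.sum_congr rfl fun i _ => by rw [h]; ring
  have hδ0 : 0 ≤ δ := (abs_nonneg _).trans (hδ ⟨0, hp⟩)
  have h4 : |‖P u‖ ^ 2 - ‖u‖ ^ 2| ≤ 2 * δ := by
    rw [h3]
    refine (Finset.abs_sum_le_sum_abs _ _).trans ?_
    have : ∑ i, |(t i - 1) * ‖u i‖ ^ 2| ≤ ∑ i, δ * ‖u i‖ ^ 2 := Finset.sum_le_sum fun i _ => by
      rw [abs_mul, abs_of_nonneg (by positivity : 0 ≤ ‖u i‖ ^ 2)]
      exact mul_le_mul_of_nonneg_right (hδ i) (by positivity)
    rw [← Finset.mul_sum, ← EuclideanSpace.norm_sq_eq] at this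
    nlinarith
  have h5 := Fm_taylor (‖u‖ ^ 2) (‖P u‖ ^ 2)
  have h6 : (‖P u‖ ^ 2 - ‖u‖ ^ 2) ^ 2 ≤ (2 * δ) ^ 2 := sq_le_sq' (abs_le.1 h4).1 (abs_le.1 h4).2
  have h7 : ∑ i, (t i - 1) * (g1 (‖u‖ ^ 2) * ‖u i‖ ^ 2 * mu u) =
      g1 (‖u‖ ^ 2) * (‖P u‖ ^ 2 - ‖u‖ ^ 2) * mu u := by
    rw [h3, Finset.mul_sum, Finset.sum_mul]
    exact Finset.sum_congr rfl fun i _ => by ring
  simp only [h7, ← add_mul]
  refine mul_le_mul_of_nonneg_right ?_ (mu_nonneg u)
  have := mul_le_mul_of_nonneg_left h6 (zero_le_one.trans one_le_L0)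
  unfold ell
  linarith

/-! ### linear changes of variables -/

/-- the real Jacobian of a complex linear map -/
def jd (A : Cn p →L[ℂ] Cn p) : ℝ := Complex.normSq (mt A).det

theorem det_real (A : Cn p →L[ℂ] Cn p) :
    LinearMap.det ((A : Cn p →ₗ[ℂ] Cn p).restrictScalars ℝ) = jd A := by
  rw [LinearMap.det_restrictScalars, Algebra.norm_complex_apply, jd,
    ← LinearMap.det_toMatrix (EuclideanSpace.basisFun (Fin p) ℂ).toBasis]
  congr 2

theorem int_lin {A : Cn p →L[ℂ] Cn p} (hA : jd A ≠ 0) (y : Cn p) {φ : Cn p → ℝ}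
    (hφ : AEStronglyMeasurable φ volume) : ∫ w, jd A * φ (A (w - y)) = ∫ u, φ u := by
  have h0 : 0 < jd A := lt_of_le_of_ne (Complex.normSq_nonneg _) hA.symm
  have h1 := Measure.map_linearMap_addHaar_eq_smul_addHaar (volume : Measure (Cn p))
    (f := (A : Cn p →ₗ[ℂ] Cn p).restrictScalars ℝ) (by rwa [det_real])
  rw [det_real] at h1
  have h2 : ∫ u, φ u ∂(Measure.map A volume) = ∫ w, φ (A w) :=
    integral_map A.continuous.aemeasurable (by
      rw [show (A : Cn p → Cn p) = (A : Cn p →ₗ[ℂ] Cn p).restrictScalars ℝ from rfl, h1]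
      exact hφ.smul_measure _)
  rw [show (A : Cn p → Cn p) = (A : Cn p →ₗ[ℂ] Cn p).restrictScalars ℝ from rfl, h1,
    integral_smul_measure, ENNReal.toReal_ofReal (abs_nonneg _), abs_of_pos (inv_pos.2 h0)] at h2
  rw [integral_const_mul, integral_sub_right_eq_self (fun w => φ (A w)) y]
  erw [← h2]
  rw [smul_eq_mul, mul_inv_cancel_left₀ hA]

/-- the model with level `c`, shape `A`, centre `y` -/
def mdl (c : ℝ) (A : Cn p →L[ℂ] Cn p) (y : Cn p) (K : ℝ) (w : Cn p) : ℝ :=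
  c * ell (A (w - y)) + K

section mdl

variable (c : ℝ) (A : Cn p →L[ℂ] Cn p) (y : Cn p) (K : ℝ)

theorem aff_hol : ContDiff ℂ ∞ fun w : Cn p => A (w - y) :=
  A.contDiff.comp (contDiff_id.sub contDiff_const)

theorem aff_smooth : ContDiff ℝ ∞ fun w : Cn p => A (w - y) := (aff_hol A y).restrict_scalars ℝ

theorem aff_fderiv (w : Cn p) : fderiv ℂ (fun w : Cn p => A (w - y)) w = A := by
  have h := A.hasFDerivAt.comp w ((hasFDerivAt_id (𝕜 := ℂ) w).sub_const y)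
  rw [ContinuousLinearMap.comp_id] at h
  exact h.fderiv

theorem ellA_smooth : ContDiff ℝ ∞ fun w : Cn p => ell (A (w - y)) :=
  ell_smooth.comp (aff_smooth A y)

theorem mdl_smooth : ContDiff ℝ ∞ (mdl c A y K) :=
  (contDiff_const.mul (ellA_smooth A y)).add contDiff_const

theorem lvE_mdl (w v : Cn p) : lvE (mdl c A y K) w v = c * lvE ell (A (w - y)) (A v) := by
  unfold mdl
  rw [lvE_add (contDiff_const.mul (ellA_smooth A y)).contDiffAt contDiffAt_const, lvE_const,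
    add_zero, lvE_const_mul (ellA_smooth A y).contDiffAt]
  have h := lvE_comp (T := fun w : Cn p => A (w - y)) (u := ell) (z := w)
    ((aff_hol A y).of_le (by norm_cast)).contDiffAt
    (ell_smooth.of_le (by norm_cast)).contDiffAt v
  rw [aff_fderiv] at h
  rw [← h]; rfl

theorem lvE_mdl_bd {c : ℝ} (hc : 0 ≤ c) (w v : Cn p) : 0 ≤ lvE (mdl c A y K) w v ∧
    lvE (mdl c A y K) w v ≤ c * L0 * ‖A‖ ^ 2 / max (‖A (w - y)‖ ^ 2) 1 * ‖v‖ ^ 2 := by
  rw [lvE_mdl]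
  obtain ⟨h1, h2⟩ := lvE_ell_bd (A (w - y)) (A v)
  refine ⟨mul_nonneg hc h1, (mul_le_mul_of_nonneg_left h2 hc).trans ?_⟩
  have h3 : ‖A v‖ ^ 2 ≤ ‖A‖ ^ 2 * ‖v‖ ^ 2 := by
    rw [← mul_pow]; exact pow_le_pow_left₀ (norm_nonneg _) (A.le_opNorm v) 2
  have h4 : 0 ≤ c * (L0 / max (‖A (w - y)‖ ^ 2) 1) := by have := one_le_L0; positivity
  refine le_trans (le_of_eq (by ring)) ((mul_le_mul_of_nonneg_left h3 h4).trans (le_of_eq ?_))
  ring

theorem sp_mdl {c : ℝ} (hc : 0 ≤ c) : Sp univ (mdl c A y K) :=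
  ⟨mdl_smooth c A y K, fun w _ =>
    (psd_iff (mdl_smooth c A y K).contDiffAt).2 fun v => (lvE_mdl_bd A y K hc w v).1⟩

theorem mh_mdl (w : Cn p) :
    mh (fun _ => mdl c A y K) w = c ^ p * (jd A * mu (A (w - y))) := by
  have h0 : hess (fun _ : Cn p => K) w = 0 := hess_cst K w
  have h1 : hess (mdl c A y K) w = (c : ℂ) • ((mt A)ᵀ * hess ell (A (w - y)) * (mt A).map conj) := by
    unfold mdl
    rw [hess_add (contDiff_const.mul (ellA_smooth A y)).contDiffAt contDiffAt_const, h0, add_zero,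
      hess_const_mul c (ellA_smooth A y).contDiffAt,
      hess_pull (T := fun w : Cn p => A (w - y)) (u := ell)
        (A.analyticAt _ |>.comp (analyticAt_id.sub analyticAt_const)) ell_smooth.contDiffAt,
      aff_fderiv]
  have h2 : ((mt A).map conj).det = conj (mt A).det := ((starRingEnd ℂ).map_det (mt A)).symm
  rw [mu, mh_same, mh_same, h1, Matrix.det_smul, Matrix.det_mul, Matrix.det_mul,
    Matrix.det_transpose, h2, Fintype.card_fin, mul_right_comm, Complex.mul_conj, ← ofReal_pow,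
    Complex.re_ofReal_mul, Complex.re_ofReal_mul, jd]
  ring

theorem int_mdl {A : Cn p →L[ℂ] Cn p} (hA : jd A ≠ 0) {φ : Cn p → ℝ} (hφ : Continuous φ) :
    ∫ w, φ (A (w - y)) * mh (fun _ => mdl c A y K) w = c ^ p * ∫ u, φ u * mu u := by
  rw [← int_lin hA y (φ := fun u => φ u * mu u) (hφ.mul mu_cont).aestronglyMeasurable,
    ← integral_const_mul]
  refine integral_congr_ae (Eventually.of_forall fun w => ?_)
  simp only [mh_mdl]
  ring

end mdl

end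

end Crest.Agent.X261.Pole2
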