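import Crest.Agent.X261.Pole2.Glue
import Crest.Agent.X261.BT.Inst

/-!
# Row 261, package Pole2 (helper32), file `Asy0`: asymptotics of the depth functional from the
energy of the model family
-/

set_option autoImplicit false
set_option linter.unusedSectionVars false

open Set Filter Topology MeasureTheory Metric

namespace Crest.Agent.X261.Pole2

open Crest.Agent.R275.Geo
open Crest.Agent.R281.Kp_487 (KP)
open Crest.Agent.X261.BT

noncomputable section

theorem pw_near (p : ℕ) {u v c σ s D E : ℝ} (hu : 0 ≤ u) (huc : u ≤ c) (hv : 0 ≤ v) (hvc : v ≤ c)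
    (hs : 0 ≤ s) (hσ : |σ - s| ≤ D) (hE : |(u - v) * s| ≤ E) :
    |u ^ (p + 1) * σ - v ^ (p + 1) * s| ≤ c ^ (p + 1) * D + (p + 1) * c ^ p * E := by
  have hc : 0 ≤ c := hu.trans huc
  have h1 : |u ^ (p + 1) - v ^ (p + 1)| ≤ |u - v| * (p + 1) * c ^ p := by
    have := abs_pow_sub_pow_le u v (p + 1)
    rw [Nat.add_sub_cancel, Nat.cast_succ, abs_of_nonneg hu, abs_of_nonneg hv] at this
    exact this.trans (mul_le_mul_of_nonneg_left
      (pow_le_pow_left₀ (le_max_of_le_left hu) (max_le huc hvc) p) (by positivity))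
  have h2 : |u ^ (p + 1) * (σ - s)| ≤ c ^ (p + 1) * D := by
    rw [abs_mul, abs_of_nonneg (pow_nonneg hu _)]
    exact mul_le_mul (pow_le_pow_left₀ hu huc _) hσ (abs_nonneg _) (pow_nonneg hc _)
  have h3 : |(u ^ (p + 1) - v ^ (p + 1)) * s| ≤ (p + 1) * c ^ p * E := by
    rw [abs_mul, abs_of_nonneg hs] at hE ⊢
    calc |u ^ (p + 1) - v ^ (p + 1)| * s ≤ |u - v| * (p + 1) * c ^ p * s :=
          mul_le_mul_of_nonneg_right h1 hs
      _ = (p + 1) * c ^ p * (|u - v| * s) := by ring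
      _ ≤ _ := mul_le_mul_of_nonneg_left hE (by positivity)
  calc _ = |u ^ (p + 1) * (σ - s) + (u ^ (p + 1) - v ^ (p + 1)) * s| := by congr 1; ring
    _ ≤ _ := (abs_add_le _ _).trans (add_le_add h2 h3)

variable {n p : ℕ} {M : Type} [TopologicalSpace M] {A : Atl n M} {H : KP A} {T : Set M}
  {π : M → Cn p} {y : Cn p} {c r a s₀ : ℝ} {W : ℝ → M → ℝ} {K : Set M}
  [MeasurableSpace M] [BorelSpace M] [Countable A.ι] [T2Space M]

theorem VF.pp_smul (F : VF H T π y c W r a s₀ K) (hH : H.Semipos) {t s : ℝ} (h0 : 0 ≤ t)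
    (h1 : t ≤ 1) (hs : s₀ ≤ s) : PP H fun x => t * W s x := by
  simpa using (F.pp s hs).cvx (PP.zero hH) h0 (sub_nonneg.2 h1) (add_sub_cancel _ _)

/-- depth of the model on the core -/
theorem VF.core (F : VF H T π y c W r a s₀ K) (hc : 0 ≤ c) {s : ℝ} (hs : s₀ ≤ s) {x : M}
    (hx : x ∈ T) (h : ‖π x - y‖ ^ 2 ≤ Real.exp (-s)) : W s x ≤ a + c * (Real.log 2 - s) := by
  have h1 : ‖π x - y‖ < r := by
    refine lt_of_pow_lt_pow_left₀ 2 F.r_pos.le (h.trans_lt ?_)
    linarith [F.s_big, Real.exp_le_exp.2 (neg_le_neg hs), Real.exp_pos (-s₀)]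
  have h2 : Real.exp s * ‖π x - y‖ ^ 2 ≤ 1 := by
    have := mul_le_mul_of_nonneg_left h (Real.exp_pos s).le
    rwa [← Real.exp_add, add_neg_cancel, Real.exp_zero] at this
  have h3 := (Ls_bd s y (π x)).2
  rw [max_eq_right h2, Real.log_one] at h3
  rw [F.inn s hs x hx h1]
  exact add_le_add_right (mul_le_mul_of_nonneg_left (by linarith) hc) a

/-- the model is bounded away from the pole -/
theorem VF.away (F : VF H T π y c W r a s₀ K) (hc : 0 ≤ c) {r₀ : ℝ} (hr : 0 < r₀) :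
    ∃ B : ℝ, 0 ≤ B ∧ ∀ s, s₀ ≤ s → ∀ x, ¬ (x ∈ T ∧ ‖π x - y‖ < r ∧ ‖π x - y‖ ≤ r₀) → -B ≤ W s x := by
  obtain ⟨B, hB⟩ := (F.pp s₀ le_rfl).qp.continuous.bounded_above_of_compact_support
    (F.pp s₀ le_rfl).cpt
  refine ⟨|B| + |a + c * Real.log (r₀ ^ 2)|, by positivity, fun s hs x hx => ?_⟩
  by_cases h : x ∈ T ∧ ‖π x - y‖ < r
  · have h1 : r₀ < ‖π x - y‖ := not_le.1 fun h1 => hx ⟨h.1, h.2, h1⟩
    have h2 : Real.log (Real.exp s * r₀ ^ 2) ≤ Real.log (max (Real.exp s * ‖π x - y‖ ^ 2) 1) :=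
      Real.log_le_log (by positivity) (le_max_of_le_left (by gcongr))
    rw [Real.log_mul (Real.exp_pos s).ne' (by positivity), Real.log_exp] at h2
    have h3 : Real.log (r₀ ^ 2) ≤ Ls s y (π x) := by linarith [(Ls_bd s y (π x)).1]
    rw [F.inn s hs x h.1 h.2]
    linarith [mul_le_mul_of_nonneg_left h3 hc, neg_abs_le (a + c * Real.log (r₀ ^ 2)), abs_nonneg B]
  · rw [F.out s hs x h]
    linarith [neg_abs_le (W s₀ x), le_abs_self B, abs_nonneg (a + c * Real.log (r₀ ^ 2)),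
      show |W s₀ x| ≤ B from hB x]

/-- comparison of energies from a one sided bound -/
theorem En_le_of_le (hH : H.Pos) {f g : M → ℝ} (hf : PP H f) (hf0 : ∀ x, f x ≤ 0) (hg : PP H g)
    (hK : IsCompact K) (h0 : ∀ x ∉ K, g x = 0) {E : ℝ} (hE : 0 ≤ E) (h : ∀ x, f x ≤ g x + E) :
    En H f ≤ En H g + (MA H 0).real K * E :=
  (En_mono hH hf (hf.max hg) fun _ => le_max_left _ _).trans
    (En_lip hH (hf.max hg) hg hK (fun x hx => by rw [h0 x hx]; exact max_eq_right (hf0 x)) h0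
      fun x _ => max_le (h x) (by linarith))

/-- **asymptotics of the depth functional**, from the energy of the models -/
theorem asym_of (hH : H.Pos) (hS : Slow H) {k : ℝ} (hk : 0 ≤ k)
    (hy : ∀ c > 0, ∃ W r a s₀ K, VF H T π y c W r a s₀ K ∧ ∃ C : ℝ, ∀ t, 0 ≤ t → t ≤ 1 →
      ∀ s, s₀ ≤ s → |-En H (fun x => t * W s x) - k * (t * c) ^ (p + 1) * s| ≤ C)
    (F : ℝ → ℝ → Set (M → ℝ)) {C₀ r₀ s₁ : ℝ} (hr : 0 < r₀)
    (F2 : ∀ s ≥ s₁, ∀ h ≥ 0, ∀ f : M → ℝ,
      (∀ x ∈ T, ‖π x - y‖ ^ 2 ≤ Real.exp (C₀ - s) → f x ≤ -h - C₀) → f ∈ F s h)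
    (F3 : ∀ s ≥ s₁, ∀ h ≥ 0, ∀ f : M → ℝ, PP H f → (∀ x, f x ≤ 0) → f ∈ F s h →
      ∀ x ∈ T, ‖π x - y‖ ≤ r₀ → f x ≤ -h + C₀ +
        h / (s - C₀) * Real.log (max (Real.exp (s + C₀) * ‖π x - y‖ ^ 2) 1))
    (c₁ : ℝ) : ∃ C s₂ : ℝ, ∀ s ≥ s₂, ∀ h, 0 ≤ h → h ≤ c₁ * s →
      |(lsOf hH hS).dp (F s h) 0 - k * h ^ (p + 1) / s ^ p| ≤ C := by
  set c := |c₁| + 1 with hc
  have c0 : 0 < c := by positivity
  obtain ⟨W, r, a, s₀, K, G, CE, hE⟩ := hy c c0
  obtain ⟨B₀, hB₀, hB⟩ := G.away c0.le hr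
  set D := |C₀| with hD
  have D0 : 0 ≤ D := abs_nonneg _
  have D1 : C₀ ≤ D := le_abs_self _
  have D2 : -D ≤ C₀ := neg_abs_le _
  have l2 : 0 ≤ Real.log 2 := Real.log_nonneg one_le_two
  set B := D + |a| + c * Real.log 2 with hBd
  have B0 : 0 ≤ B := by positivity
  set E := D + 2 * c * D + |a| + B₀ with hEd
  have E0 : 0 ≤ E := by positivity
  set C₁ := k * (c ^ (p + 1) * D + (p + 1) * c ^ p * (B + c * D)) with hC₁
  have m0 : 0 ≤ (MA H 0).real K * E := by positivity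
  refine ⟨CE + C₁ + (MA H 0).real K * E, max s₁ (s₀ + D + B + c * D + 1), fun s hs h h0 h1 => ?_⟩
  have hs1 : s₁ ≤ s := (le_max_left _ _).trans hs
  have hs2 : s₀ + D + B + c * D + 1 ≤ s := (le_max_right _ _).trans hs
  have cD : 0 ≤ c * D := by positivity
  have s00 := G.s_nonneg
  have sp : 0 < s := by linarith
  have h2 : h ≤ |c₁| * s := h1.trans (mul_le_mul_of_nonneg_right (le_abs_self _) sp.le)
  have h3 : h + s ≤ c * s := by rw [hc]; linarith
  have v0 : 0 ≤ h / s := by positivity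
  have vc : h / s ≤ c := (div_le_iff₀ sp).2 (by linarith)
  have ev : k * h ^ (p + 1) / s ^ p = k * ((h / s) ^ (p + 1) * s) := by
    rw [div_pow]; field_simp; ring
  -- comparison of the model energy with the main term
  have cmp : ∀ u σ, 0 ≤ u → u ≤ c → s₀ ≤ σ → |σ - s| ≤ D → |u * s - h| ≤ B + c * D →
      |-En H (fun x => u / c * W σ x) - k * h ^ (p + 1) / s ^ p| ≤ CE + C₁ := by
    intro u σ u0 uc hσ h4 h5
    have e1 := hE (u / c) (by positivity) ((div_le_one c0).2 uc) σ hσ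
    have e2 := pw_near p u0 uc v0 vc sp.le h4 (E := B + c * D)
      (by rwa [sub_mul, div_mul_cancel₀ _ sp.ne'])
    have e3 := mul_le_mul_of_nonneg_left e2 hk
    rw [← abs_of_nonneg hk, ← abs_mul, abs_of_nonneg hk, mul_sub] at e3
    rw [div_mul_cancel₀ _ c0.ne', mul_assoc] at e1
    rw [ev]
    exact (abs_sub_le _ _ _).trans (add_le_add e1 e3)
  have pp : ∀ u σ, 0 ≤ u → u ≤ c → s₀ ≤ σ → PP H fun x => u / c * W σ x := fun u σ u0 uc hσ =>
    G.pp_smul (pos_semi hH) (by positivity) ((div_le_one c0).2 uc) hσ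
  -- the competitor
  have σp : 0 < s - D := by linarith
  have u0 : 0 ≤ (h + B) / (s - D) := by positivity
  have uc : (h + B) / (s - D) ≤ c := (div_le_iff₀ σp).2 (by rw [mul_sub]; linarith)
  have ue : (h + B) / (s - D) * (s - D) = h + B := div_mul_cancel₀ _ σp.ne'
  have le0 : (fun x => (h + B) / (s - D) / c * W (s - D) x) ≤ 0 := fun x =>
    mul_nonpos_of_nonneg_of_nonpos (by positivity) (G.le _ (by linarith) x)
  have mem : (fun x => (h + B) / (s - D) / c * W (s - D) x) ∈ F s h := by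
    refine F2 s hs1 h h0 _ fun x hx hx' => ?_
    have k1 := G.core c0.le (s := s - D) (by linarith) hx
      (hx'.trans (Real.exp_le_exp.2 (by linarith)))
    generalize (h + B) / (s - D) = u at *
    have t1 : u / c ≤ 1 := (div_le_one c0).2 uc
    have t0 : 0 ≤ u / c := by positivity
    have k2 := mul_le_mul_of_nonneg_left k1 t0
    have k3 : u / c * (a + c * (Real.log 2 - (s - D))) =
        u / c * a + u * Real.log 2 - u * (s - D) := by field_simp; ring
    have k4 : u / c * a ≤ |a| := (mul_le_mul_of_nonneg_left (le_abs_self a) t0).trans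
      (mul_le_of_le_one_left (abs_nonneg a) t1)
    have k5 := mul_le_mul_of_nonneg_right uc l2
    linarith
  have q1 : (fun x => (h + B) / (s - D) / c * W (s - D) x) ∈ (lsOf hH hS).Q :=
    ⟨pp _ _ u0 uc (by linarith), le0⟩
  have up := Pole.LS.dp_le q1 le0 mem
  have up' := cmp _ (s - D) u0 uc (by linarith) (by rw [sub_sub_cancel_left, abs_neg, abs_abs])
    (by
      have : (h + B) / (s - D) * s - h = B + (h + B) / (s - D) * D := by linarith
      rw [this, abs_of_nonneg (by positivity)]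
      linarith [mul_le_mul_of_nonneg_right uc D0])
  refine abs_le.2 ⟨?_, by
    have := (abs_le.1 up').2
    change _ ≤ -En H _ at up
    linarith⟩
  -- the lower bound
  have τp : 0 < s - C₀ := by linarith
  have w0 : 0 ≤ h / (s - C₀) := by positivity
  have cC : c * C₀ ≤ c * D := mul_le_mul_of_nonneg_left D1 c0.le
  have wc : h / (s - C₀) ≤ c := (div_le_iff₀ τp).2 (by rw [mul_sub]; linarith)
  have we : h / (s - C₀) * (s - C₀) = h := div_mul_cancel₀ _ τp.ne'
  have wD : |h / (s - C₀) * C₀| ≤ c * D := by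
    rw [abs_mul, abs_of_nonneg w0]; exact mul_le_mul_of_nonneg_right wc D0
  have lo := cmp _ (s + C₀) w0 wc (by linarith) (by rw [add_sub_cancel_left])
    (by
      have : h / (s - C₀) * s - h = h / (s - C₀) * C₀ := by linarith
      rw [this]; linarith)
  have low : k * h ^ (p + 1) / s ^ p - (CE + C₁ + (MA H 0).real K * E) ≤
      (lsOf hH hS).dp (F s h) 0 := by
    refine le_csInf ⟨_, _, ⟨q1, le0, mem⟩, rfl⟩ ?_
    rintro _ ⟨f, ⟨hf, -, hf'⟩, rfl⟩
    have k0 := F3 s hs1 h h0 f hf.1 hf.2 hf'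
    have k1 := En_le_of_le hH hf.1 hf.2 (pp _ (s + C₀) w0 wc (by linarith)) G.cpt
      (fun x hx => by rw [G.off _ (by linarith) x hx, mul_zero]) E0 fun x => by
        generalize h / (s - C₀) = u at *
        have t1 : u / c ≤ 1 := (div_le_one c0).2 wc
        have t0 : 0 ≤ u / c := by positivity
        by_cases hx : x ∈ T ∧ ‖π x - y‖ < r ∧ ‖π x - y‖ ≤ r₀
        · have k2 := k0 x hx.1 hx.2.2
          have k3 := mul_le_mul_of_nonneg_left (Ls_bd (s + C₀) y (π x)).1 w0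
          have k4 : u / c * (a + c * Ls (s + C₀) y (π x)) =
              u / c * a + u * Ls (s + C₀) y (π x) := by field_simp
          have k5 : -|a| ≤ u / c * a := by
            have := mul_le_mul_of_nonneg_left (neg_abs_le a) t0
            linarith [mul_le_of_le_one_left (abs_nonneg a) t1]
          rw [G.inn _ (by linarith) x hx.1 hx.2.1, k4]
          linarith [le_abs_self (u * C₀)]
        · have k2 := mul_le_mul_of_nonneg_left (hB (s + C₀) (by linarith) x hx) t0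
          have k3 : f x ≤ 0 := hf.2 x
          linarith [mul_le_of_le_one_left hB₀ t1, abs_nonneg a]
    have := (abs_le.1 lo).1
    change _ ≤ -En H f
    linarith
  linarith

end

end Crest.Agent.X261.Pole2
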