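import Crest.Agent.X261.Pole2.Glue

/-!
# Row 261, package Pole2 (helper9), file `Ene`: the energy of the model family

`VF.energy_unif` : `En (W s) - En (W s₀) = - V k1 c^{p+1} (s - s₀) + O(1)`, uniformly for
`0 ≤ c ≤ c'`; `VF.energy` : the same for the rescaled family `t W`; `Vol.nonneg`.
-/

set_option autoImplicit false
set_option linter.unusedSectionVars false

open Set Filter Topology Complex MeasureTheory Metric

namespace Crest.Agent.X261.Pole2

open Crest.Agent.R275.Geo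
open Crest.Agent.R281.Kp_487 (KP)
open Crest.Agent.R257.HoB_843 (lvE)
open Crest.Agent.X261.BT Crest.Agent.X261.Top

noncomputable section

variable {n p : ℕ}

/-! ### the flat model -/

theorem jd_sA (s : ℝ) : jd (sA s : Cn p →L[ℂ] Cn p) ≠ 0 := by
  have h1 : R273.Map_835.mt (sA s : Cn p →L[ℂ] Cn p) =
      ((Real.exp (s / 2) : ℝ) : ℂ) • (1 : Matrix _ _ ℂ) := by
    ext b a
    simp [R273.Map_835.mt, sA_apply, Matrix.one_apply]
  rw [jd, h1, Matrix.det_smul, Matrix.det_one, mul_one, Ne, Complex.normSq_eq_zero]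
  exact pow_ne_zero _ (Complex.ofReal_ne_zero.2 (Real.exp_pos _).ne')

theorem norm_sA (s : ℝ) : ‖(sA s : Cn p →L[ℂ] Cn p)‖ ^ 2 ≤ Real.exp s := by
  have h1 : ‖(sA s : Cn p →L[ℂ] Cn p)‖ ≤ Real.exp (s / 2) :=
    ContinuousLinearMap.opNorm_le_bound _ (Real.exp_pos _).le fun w => by
      rw [sA_apply, norm_smul, Complex.norm_real, Real.norm_of_nonneg (Real.exp_pos _).le]
  refine (pow_le_pow_left₀ (norm_nonneg _) h1 2).trans (le_of_eq ?_)
  rw [sq, ← Real.exp_add, add_halves]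

theorem sA_sA (s t : ℝ) (w : Cn p) : sA s (sA t w) = sA (s + t) w := by
  rw [sA_apply, sA_apply, sA_apply, smul_smul, ← Complex.ofReal_mul, ← Real.exp_add, add_div]

theorem sA_coord (d : ℝ) (u : Cn p) (i : Fin p) : ‖sA d u i‖ ^ 2 = Real.exp d * ‖u i‖ ^ 2 := by
  rw [sA_apply, PiLp.smul_apply, norm_smul, mul_pow, Complex.norm_real,
    Real.norm_of_nonneg (Real.exp_pos _).le, sq, ← Real.exp_add, add_halves]

/-- the constant of the second order terms -/
def c2 (p : ℕ) : ℝ := p * k1 p + 16 * L0 * m1 p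

theorem c2_nonneg (hp : 1 ≤ p) : 0 ≤ c2 p := by
  have := k1_pos hp; have := m1_pos hp; have := one_le_L0
  unfold c2; positivity

theorem int_sA (hp : 1 ≤ p) {d : ℝ} (hd : |d| ≤ 1) :
    ∫ u : Cn p, (ell (sA d u) - ell u) * mu u ≤ p * k1 p * d + c2 p * d ^ 2 := by
  have h1 := int_step hp (sA d).continuous (t := fun _ => Real.exp d) (sA_coord d)
    (δ := 2 * |d|) fun _ => Real.abs_exp_sub_one_le hd
  have h2 := (abs_le.1 (Real.abs_exp_sub_one_sub_id_le hd)).2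
  have h3 : 0 ≤ p * k1 p := mul_nonneg (Nat.cast_nonneg p) (k1_pos hp).le
  rw [Finset.sum_const, Finset.card_univ, Fintype.card_fin, nsmul_eq_mul, mul_pow, sq_abs] at h1
  have h4 := mul_le_mul_of_nonneg_left h2 h3
  unfold c2
  linarith

theorem int_sA' (hp : 1 ≤ p) (c d e : ℝ) : ∫ u : Cn p, c * (e + d * (ell (sA e u) - ell u)) * mu u
    = c * (e * m1 p + d * ∫ u : Cn p, (ell (sA e u) - ell u) * mu u) := by
  have h1 := int_mu hp (φ := fun u : Cn p => ell (sA e u) - ell u)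
    ((ell_smooth.continuous.comp (sA e).continuous).sub ell_smooth.continuous)
  rw [m1, ← integral_const_mul, ← integral_const_mul,
    ← integral_add (int_mu hp continuous_const) (h1.const_mul d), ← integral_const_mul]
  exact integral_congr_ae (Eventually.of_forall fun u => by simp only; ring)

/-- the gap between two models -/
def gp (c s t : ℝ) (y w : Cn p) : ℝ := c * (Ls s y w - Ls t y w)

section gp

variable {c s t : ℝ} {y : Cn p}

theorem Ls_cont (s : ℝ) (y : Cn p) : Continuous (Ls s y) :=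
  (ellA_smooth (sA s) y).continuous.sub continuous_const

theorem gp_cont (c s t : ℝ) (y : Cn p) : Continuous (gp c s t y) :=
  continuous_const.mul ((Ls_cont s y).sub (Ls_cont t y))

theorem gp_nonneg (hc : 0 ≤ c) (h : s ≤ t) (w : Cn p) : 0 ≤ gp c s t y w :=
  mul_nonneg hc (sub_nonneg.2 (Ls_step h y w).1)

theorem gp_le (hc : 0 ≤ c) (h : s ≤ t) (w : Cn p) : gp c s t y w ≤ c * (t - s) :=
  mul_le_mul_of_nonneg_left (by linarith [(Ls_step h y w).2]) hc

theorem gp_zero (h : s ≤ t) {w : Cn p} (hw : 2 * Real.exp (-s) ≤ ‖w - y‖ ^ 2) :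
    gp c s t y w = 0 := by
  have := Real.exp_le_exp.2 (neg_le_neg h)
  rw [gp, Ls_log hw, Ls_log (by linarith), sub_self, mul_zero]

theorem gp_tsupp (h : s ≤ t) {w : Cn p} (hw : w ∈ tsupport (gp c s t y)) :
    ‖w - y‖ ^ 2 ≤ 2 * Real.exp (-s) :=
  closure_minimal (t := {w : Cn p | ‖w - y‖ ^ 2 ≤ 2 * Real.exp (-s)})
    (fun _ h1 => le_of_not_ge fun h2 => Function.mem_support.1 h1 (gp_zero h h2))
    (isClosed_le (by fun_prop) continuous_const) hw

theorem flat_lo (hp : 1 ≤ p) (hc : 0 ≤ c) (h : s ≤ t) (h1 : t - s ≤ 1) (K : ℝ) :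
    c ^ (p + 1) * (k1 p * (t - s) - c2 p * (t - s) ^ 2) ≤
      ∫ w, gp c s t y w * mh (fun _ => mdl c (sA s) y K) w := by
  have h2 := int_mdl c y K (jd_sA s)
    (φ := fun u => c * (t - s + -1 * (ell (sA (t - s) u) - ell u)))
    (continuous_const.mul (continuous_const.add (continuous_const.mul
      ((ell_smooth.continuous.comp (sA _).continuous).sub ell_smooth.continuous))))
  have h3 : ∀ w, gp c s t y w = c * (t - s + -1 * (ell (sA (t - s) (sA s (w - y))) -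
      ell (sA s (w - y)))) := fun w => by
    rw [sA_sA, sub_add_cancel, gp, Ls, Ls]; ring
  have h4 := int_sA hp (d := t - s) (by rwa [abs_of_nonneg (sub_nonneg.2 h)])
  simp only [h3]
  rw [h2, int_sA' hp, pow_succ, mul_assoc, m1_k1]
  exact mul_le_mul_of_nonneg_left (mul_le_mul_of_nonneg_left (by linarith) hc) (pow_nonneg hc p)

theorem flat_hi (hp : 1 ≤ p) (hc : 0 ≤ c) (h : s ≤ t) (h1 : t - s ≤ 1) (K : ℝ) :
    ∫ w, gp c s t y w * mh (fun _ => mdl c (sA t) y K) w ≤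
      c ^ (p + 1) * (k1 p * (t - s) + c2 p * (t - s) ^ 2) := by
  have h2 := int_mdl c y K (jd_sA t)
    (φ := fun u => -c * (s - t + -1 * (ell (sA (s - t) u) - ell u)))
    (continuous_const.mul (continuous_const.add (continuous_const.mul
      ((ell_smooth.continuous.comp (sA _).continuous).sub ell_smooth.continuous))))
  have h3 : ∀ w, gp c s t y w = -c * (s - t + -1 * (ell (sA (s - t) (sA t (w - y))) -
      ell (sA t (w - y)))) := fun w => by
    rw [sA_sA, sub_add_cancel, gp, Ls, Ls]; ring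
  have h4 := int_sA hp (d := s - t) (by rwa [abs_sub_comm, abs_of_nonneg (sub_nonneg.2 h)])
  simp only [h3]
  rw [h2, int_sA' hp, pow_succ, mul_assoc, m1_k1, neg_mul, ← mul_neg]
  exact mul_le_mul_of_nonneg_left (mul_le_mul_of_nonneg_left (by linarith) hc) (pow_nonneg hc p)

/-- the volume of the unit ball -/
def vb (p : ℕ) : ℝ := (volume : Measure (Cn p)).real (ball 0 1)

theorem int_gp (hc : 0 ≤ c) (h : s ≤ t) :
    ∫ w, gp c s t y w ≤ c * (t - s) * ((2 * Real.exp (-s)) ^ p * vb p) := by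
  have hd : Module.finrank ℝ (Cn p) = 2 * p := by
    rw [finrank_real_of_complex, finrank_euclideanSpace_fin]
  have h0 : 0 ≤ 2 * Real.exp (-s) := by positivity
  have h1 : (volume : Measure (Cn p)).real (closedBall y √(2 * Real.exp (-s))) =
      (2 * Real.exp (-s)) ^ p * vb p := by
    rw [measureReal_def, Measure.addHaar_closedBall _ _ (Real.sqrt_nonneg _), hd, pow_mul,
      Real.sq_sqrt h0, ENNReal.toReal_mul, ENNReal.toReal_ofReal (pow_nonneg h0 p)]
    rfl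
  rw [← h1, mul_comm, ← smul_eq_mul, ← integral_indicator_const _ measurableSet_closedBall]
  refine integral_mono_of_nonneg (Eventually.of_forall (gp_nonneg hc h))
    ((integrableOn_const measure_closedBall_lt_top.ne).integrable_indicator
      measurableSet_closedBall) (Eventually.of_forall fun w => ?_)
  by_cases hw : w ∈ closedBall y √(2 * Real.exp (-s))
  · rw [indicator_of_mem hw]; exact gp_le hc h w
  · rw [indicator_of_notMem hw]
    rw [mem_closedBall_iff_norm, not_le] at hw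
    exact (gp_zero h ((Real.sqrt_lt' ((Real.sqrt_nonneg _).trans_lt hw)).1 hw).le).le

theorem lvE_sA (hc : 0 ≤ c) (K : ℝ) (w v : Cn p) :
    lvE (mdl c (sA t) y K) w v ≤ c * L0 * Real.exp t * ‖v‖ ^ 2 := by
  refine (lvE_mdl_bd (sA t) y K hc w v).2.trans (mul_le_mul_of_nonneg_right ?_ (by positivity))
  have h0 : 0 ≤ c * L0 := mul_nonneg hc (zero_le_one.trans one_le_L0)
  exact (div_le_self (by positivity) (le_max_right _ _)).trans
    (mul_le_mul_of_nonneg_left (norm_sA t) h0)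

/-- the lower order term of one step -/
theorem err_le (hp : 1 ≤ p) {c' : ℝ} (hc : 0 ≤ c) (hc' : c ≤ c') (hs : 0 ≤ s) (h : s ≤ t)
    (h1 : t - s ≤ 1) : ∫ w, gp c s t y w * (1 + c * L0 * Real.exp t) ^ (p - 1) ≤
      c' * (1 + c' * L0 * Real.exp 1) ^ (p - 1) * 2 ^ p * vb p * ((t - s) * Real.exp (-s)) := by
  obtain ⟨q, rfl⟩ : ∃ q, p = q + 1 := ⟨p - 1, by omega⟩
  have hL := one_le_L0
  have hc0 := hc.trans hc'
  have hd := sub_nonneg.2 h
  have hv : 0 ≤ vb (q + 1) := measureReal_nonneg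
  have h2 : (1 + c * L0 * Real.exp t) * Real.exp (-s) ≤ 1 + c' * L0 * Real.exp 1 := by
    rw [add_mul, one_mul, mul_assoc, ← Real.exp_add]
    have h3 : Real.exp (t + -s) ≤ Real.exp 1 := Real.exp_le_exp.2 (by linarith)
    have h4 : Real.exp (-s) ≤ 1 := Real.exp_le_one_iff.2 (by linarith)
    gcongr
  rw [integral_mul_const, Nat.add_sub_cancel]
  refine (mul_le_mul_of_nonneg_right (int_gp hc h) (by positivity)).trans ?_
  calc c * (t - s) * ((2 * Real.exp (-s)) ^ (q + 1) * vb (q + 1)) * (1 + c * L0 * Real.exp t) ^ q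
      = c * ((1 + c * L0 * Real.exp t) * Real.exp (-s)) ^ q * 2 ^ (q + 1) * vb (q + 1) *
        ((t - s) * Real.exp (-s)) := by rw [mul_pow, mul_pow]; ring
    _ ≤ _ := by gcongr

end gp

/-! ### the family on a tube -/

variable {M : Type} [TopologicalSpace M] {A : Atl n M} {H : KP A} {T K : Set M}
  {π : M → Cn p} {y : Cn p} {c r a s₀ s t V : ℝ} {W : ℝ → M → ℝ}

theorem VF.scale (hH : H.Semipos) (hF : VF H T π y c W r a s₀ K) {θ : ℝ} (h0 : 0 ≤ θ)
    (h1 : θ ≤ 1) : VF H T π y (θ * c) (fun s x => θ * W s x) r (θ * a) s₀ K where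
  r_pos := hF.r_pos
  r_lt := hF.r_lt
  s_nonneg := hF.s_nonneg
  s_big := hF.s_big
  cpt := hF.cpt
  pp s hs := ⟨(hF.pp s hs).qp.mul_le_one hH h0 h1, (hF.pp s hs).cpt.mul_left⟩
  le s hs x := mul_nonpos_of_nonneg_of_nonpos h0 (hF.le s hs x)
  off s hs x hx := by rw [hF.off s hs x hx, mul_zero]
  inn s hs x hx h2 := by rw [hF.inn s hs x hx h2]; ring
  out s hs x hx := by rw [hF.out s hs x hx]

theorem VF.big (hF : VF H T π y c W r a s₀ K) (hs : s₀ ≤ s) : 2 * Real.exp (-s) < r ^ 2 := by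
  linarith [Real.exp_le_exp.2 (neg_le_neg hs), hF.s_big]

theorem VF.sub_eq (hF : VF H T π y c W r a s₀ K) (hs : s₀ ≤ s) (h : s ≤ t) (x : M) :
    W s x - W t x = lift T π (gp c s t y) x := by
  by_cases h1 : x ∈ T ∧ ‖π x - y‖ < r
  · rw [hF.inn s hs x h1.1 h1.2, hF.inn t (hs.trans h) x h1.1 h1.2, lift_of_mem h1.1, gp]
    ring
  rw [hF.out s hs x h1, hF.out t (hs.trans h) x h1, sub_self]
  by_cases h2 : x ∈ T
  · rw [lift_of_mem h2, gp_zero h ((hF.big hs).le.trans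
      (pow_le_pow_left₀ hF.r_pos.le (not_lt.1 fun h3 => h1 ⟨h2, h3⟩) 2))]
  · rw [lift_of_not h2]

variable [MeasurableSpace M] [BorelSpace M] [Countable A.ι] [T2Space M]

/-- the inequalities of `Vol` with a given constant -/
def VolC (H : KP A) (T : Set M) (π : M → Cn p) (V ρ C : ℝ) : Prop :=
  ∀ (U W : Set M) (u : M → ℝ) (f g Λ : Cn p → ℝ),
    QP H U u → IsOpen W → W ⊆ U ∩ T → (∀ x ∈ W, u x = f (π x)) → Sp univ f →
    Continuous Λ → (∀ w, 0 ≤ Λ w) → (∀ w v, lvE f w v ≤ Λ w * ‖v‖ ^ 2) →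
    Continuous g → (∀ w, 0 ≤ g w) → (∀ w, ρ < ‖w‖ → g w = 0) →
    (∀ x ∈ T, π x ∈ tsupport g → x ∈ W) →
      V * ∫ w, g w * mh (fun _ => f) w ≤ ∫ x, lift T π g x ∂MAo H U u ∧
      ∫ x, lift T π g x ∂MAo H U u ≤
        V * (∫ w, g w * mh (fun _ => f) w) + C * ∫ w, g w * (1 + Λ w) ^ (p - 1)

theorem VF.vol (h : TB A T π) (hc : 0 ≤ c) (hF : VF H T π y c W r a s₀ K) {C : ℝ}
    (hV : VolC H T π V (‖y‖ + r) C) (hs : s₀ ≤ s) (hst : s ≤ t) {τ : ℝ} (hτ : s₀ ≤ τ) :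
    V * ∫ w, gp c s t y w * mh (fun _ => mdl c (sA τ) y (a - c * τ)) w ≤
      ∫ x, (W s x - W t x) ∂MA H (W τ) ∧ ∫ x, (W s x - W t x) ∂MA H (W τ) ≤
      V * (∫ w, gp c s t y w * mh (fun _ => mdl c (sA τ) y (a - c * τ)) w) +
        C * ∫ w, gp c s t y w * (1 + c * L0 * Real.exp τ) ^ (p - 1) := by
  simp only [hF.sub_eq hs hst]
  have hL := one_le_L0
  refine hV univ {x | x ∈ T ∧ π x ∈ ball y r} (W τ) _ _ (fun _ => c * L0 * Real.exp τ)
    (hF.pp τ hτ).qp (h.isOpen_pre isOpen_ball) (fun x hx => ⟨trivial, hx.1⟩) (fun x hx => ?_)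
    (sp_mdl _ _ _ hc) continuous_const (fun _ => by positivity) (lvE_sA hc _) (gp_cont c s t y)
    (gp_nonneg hc hst) (fun w hw => gp_zero hst ((hF.big hs).le.trans
      (pow_le_pow_left₀ hF.r_pos.le ?_ 2))) fun x hx h1 => ⟨hx, ?_⟩
  · rw [hF.inn τ hτ x hx.1 (mem_ball_iff_norm.1 hx.2), Ls_mdl]
  · linarith [norm_le_norm_add_norm_sub' w y]
  · exact mem_ball_iff_norm.2
      (lt_of_pow_lt_pow_left₀ 2 hF.r_pos.le ((gp_tsupp hst h1).trans_lt (hF.big hs)))

theorem VF.step (hH : H.Pos) (h : TB A T π) (hp : 1 ≤ p) (hV0 : 0 ≤ V) {c' : ℝ} (hc : 0 ≤ c)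
    (hc' : c ≤ c') (hF : VF H T π y c W r a s₀ K) {C : ℝ} (hC : 0 ≤ C)
    (hV : VolC H T π V (‖y‖ + r) C) (hs : s₀ ≤ s) (hst : s ≤ t) (h1 : t - s ≤ 1) :
    V * k1 p * c ^ (p + 1) * (t - s) - V * c' ^ (p + 1) * c2 p * (t - s) ^ 2 ≤
      En H (W s) - En H (W t) ∧ En H (W s) - En H (W t) ≤
      V * k1 p * c ^ (p + 1) * (t - s) + V * c' ^ (p + 1) * c2 p * (t - s) ^ 2 +
        C * (c' * (1 + c' * L0 * Real.exp 1) ^ (p - 1) * 2 ^ p * vb p) *
          ((t - s) * Real.exp (-s)) := by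
  have p1 := hF.pp s hs
  have p2 := hF.pp t (hs.trans hst)
  have h2 : V * c ^ (p + 1) * c2 p * (t - s) ^ 2 ≤ V * c' ^ (p + 1) * c2 p * (t - s) ^ 2 := by
    have := c2_nonneg hp
    gcongr
  rw [En_sub hH p1 p2]
  constructor
  · have h3 := mul_le_mul_of_nonneg_left (flat_lo (y := y) hp hc hst h1 (a - c * s)) hV0
    linarith [le_Er hH p1.qp p2.qp (p1.ce2 p2), (hF.vol h hc hV hs hst hs).1]
  · have h3 := mul_le_mul_of_nonneg_left (flat_hi (y := y) hp hc hst h1 (a - c * t)) hV0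
    have h4 := mul_le_mul_of_nonneg_left
      (err_le (y := y) hp hc hc' (hF.s_nonneg.trans hs) hst h1) hC
    linarith [Er_le hH p1.qp p2.qp (p1.ce2 p2), (hF.vol h hc hV hs hst (hs.trans hst)).2]

/-- the energy along the family, uniformly in the level `0 ≤ c ≤ c'` -/
theorem VF.energy_unif (hH : H.Pos) (h : TB A T π) (hp : 1 ≤ p) (hV0 : 0 ≤ V) (hV : Vol H T π V)
    (hr : ‖y‖ + r < 1) {c' : ℝ} (hc0 : 0 ≤ c') : ∃ C : ℝ, 0 ≤ C ∧ ∀ c W a s₀ K, 0 ≤ c → c ≤ c' →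
      VF H T π y c W r a s₀ K → ∀ s, s₀ ≤ s →
      V * k1 p * c ^ (p + 1) * (s - s₀) ≤ En H (W s₀) - En H (W s) ∧
      En H (W s₀) - En H (W s) ≤ V * k1 p * c ^ (p + 1) * (s - s₀) + C := by
  obtain ⟨C, hC, hV'⟩ := hV _ hr
  have hL := one_le_L0
  have hv : 0 ≤ vb p := measureReal_nonneg
  set D := C * (c' * (1 + c' * L0 * Real.exp 1) ^ (p - 1) * 2 ^ p * vb p) with hD
  have hD0 : 0 ≤ D := by positivity
  refine ⟨D, hD0, fun c W a s₀ K hc hc' hF s hs => ⟨?_, ?_⟩⟩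
  · have := subdiv (F := fun τ => En H (W τ) + V * k1 p * c ^ (p + 1) * τ) hs
      (C := V * c' ^ (p + 1) * c2 p) fun u v h1 h2 _ h3 => by
        linarith [(hF.step hH h hp hV0 hc hc' hC hV' h1 h2 h3).1]
    linarith
  · have := subdiv (F := fun τ => -En H (W τ) - V * k1 p * c ^ (p + 1) * τ + D * Real.exp (-τ)) hs
      (C := V * c' ^ (p + 1) * c2 p + D) fun u v h1 h2 _ h3 => by
        have h4 := (hF.step hH h hp hV0 hc hc' hC hV' h1 h2 h3).2
        have h5 := (abs_le.1 (Real.abs_exp_sub_one_sub_id_le (x := -(v - u))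
          (by rwa [abs_neg, abs_of_nonneg (sub_nonneg.2 h2)]))).2
        have h6 : Real.exp (-u) ≤ 1 := Real.exp_le_one_iff.2 (by linarith [hF.s_nonneg])
        have h7 : Real.exp (-v) = Real.exp (-u) * Real.exp (-(v - u)) := by
          rw [← Real.exp_add]; congr 1; ring
        have h8 : Real.exp (-v) - Real.exp (-u) + (v - u) * Real.exp (-u) ≤ (v - u) ^ 2 := by
          have h9 := mul_le_mul_of_nonneg_left h5 (Real.exp_pos (-u)).le
          have h10 := mul_le_mul_of_nonneg_right h6 (sq_nonneg (v - u))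
          rw [h7]; nlinarith
        rw [← hD] at h4
        linarith [mul_le_mul_of_nonneg_left h8 hD0]
    have h1 : D * Real.exp (-s₀) ≤ D :=
      mul_le_of_le_one_right hD0 (Real.exp_le_one_iff.2 (by linarith [hF.s_nonneg]))
    linarith [mul_nonneg hD0 (Real.exp_pos (-s)).le]

theorem Vol.nonneg (hH : H.Semipos) (h : TB A T π) (hp : 1 ≤ p) (hV : Vol H T π V) : 0 ≤ V := by
  obtain ⟨C, hC, hV'⟩ := hV (1 / 2) (by norm_num)
  obtain ⟨s, hs, hs'⟩ := exists_s0 (r := 1 / 2) (by norm_num)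
  have hk := k1_pos hp
  have h2 := c2_nonneg hp
  have hL := one_le_L0
  have hv : 0 ≤ vb p := measureReal_nonneg
  obtain ⟨d, hd, hd1, hκ⟩ : ∃ d : ℝ, 0 < d ∧ d ≤ 1 ∧ 0 < k1 p * d - c2 p * d ^ 2 := by
    refine ⟨k1 p / (k1 p + c2 p), by positivity, div_le_one_of_le₀ (by linarith) (by positivity), ?_⟩
    rw [show k1 p * (k1 p / (k1 p + c2 p)) - c2 p * (k1 p / (k1 p + c2 p)) ^ 2 =
      k1 p ^ 3 / (k1 p + c2 p) ^ 2 by field_simp; ring]
    positivity
  have hst : s ≤ s + d := by linarith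
  have hd2 : s + d - s ≤ 1 := by linarith
  by_contra hneg
  rw [not_le] at hneg
  set E := C * ((1 + L0 * Real.exp 1) ^ (p - 1) * 2 ^ p * vb p * (d * Real.exp (-s))) with hE
  have key : ∀ c : ℝ, 1 ≤ c → 0 ≤ V * (k1 p * d - c2 p * d ^ 2) * c + E := fun c hc => by
    have hc0 : 0 ≤ c := by linarith
    have h1 := (hV' T T _ _ _ (fun _ => c * L0 * Real.exp (s + d))
      (h.qp hH (sp_mdl (sA s) 0 0 hc0)) h.op (fun x hx => ⟨hx, hx⟩) (fun _ _ => rfl)
      (sp_mdl _ _ _ hc0) continuous_const (fun _ => by positivity)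
      (fun w v => (lvE_sA hc0 _ w v).trans (by gcongr))
      (gp_cont c s (s + d) 0) (gp_nonneg hc0 hst) (fun w hw => gp_zero hst (hs'.le.trans
        (pow_le_pow_left₀ (by norm_num) (by rw [sub_zero]; exact hw.le) 2))) fun x hx _ => hx).2
    have h3 := mul_le_mul_of_nonpos_left (flat_lo (y := 0) hp hc0 hst hd2 0) hneg.le
    have h4 := mul_le_mul_of_nonneg_left (err_le (y := 0) hp hc0 le_rfl hs hst hd2) hC
    have h5 := (integral_nonneg (lift_nonneg (gp_nonneg hc0 hst))).trans h1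
    rw [add_sub_cancel_left] at h3 h4
    obtain ⟨q, rfl⟩ : ∃ q, p = q + 1 := ⟨p - 1, by omega⟩
    rw [Nat.add_sub_cancel] at h4 h5 hE
    have h6 : (1 + c * L0 * Real.exp 1) ^ q ≤ c ^ q * (1 + L0 * Real.exp 1) ^ q := by
      rw [← mul_pow]
      exact pow_le_pow_left₀ (by positivity) (by linarith) q
    have h7 : C * (c * (1 + c * L0 * Real.exp 1) ^ q * 2 ^ (q + 1) * vb (q + 1) *
        (d * Real.exp (-s))) ≤ c ^ (q + 1) * E :=
      calc _ ≤ C * (c * (c ^ q * (1 + L0 * Real.exp 1) ^ q) * 2 ^ (q + 1) * vb (q + 1) *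
            (d * Real.exp (-s))) := by gcongr
        _ = _ := by rw [hE]; ring
    refine le_of_mul_le_mul_left ?_ (pow_pos (zero_lt_one.trans_le hc) (q + 1))
    rw [pow_succ c (q + 1)] at h3
    linarith
  have h3 := key (max 1 ((E + 1) / (-V * (k1 p * d - c2 p * d ^ 2)))) (le_max_left _ _)
  have h4 : 0 < -V * (k1 p * d - c2 p * d ^ 2) := mul_pos (by linarith) hκ
  have h5 := (div_le_iff₀ h4).1 (le_max_right 1 ((E + 1) / (-V * (k1 p * d - c2 p * d ^ 2))))
  linarith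

theorem VF.bdd (hF : VF H T π y c W r a s₀ K) : ∃ S : ℝ, 0 ≤ S ∧ ∀ x, |W s₀ x| ≤ S := by
  have h1 := hF.pp s₀ le_rfl
  obtain ⟨S, hS⟩ := h1.cpt.exists_bound_of_continuous h1.qp.continuous
  exact ⟨max S 0, le_max_right _ _, fun x => (hS x).trans (le_max_left _ _)⟩

/-- the energy of the rescaled family -/
theorem VF.energy (hH : H.Pos) (h : TB A T π) (hp : 1 ≤ p) (hV : Vol H T π V) (hc : 0 ≤ c)
    (hF : VF H T π y c W r a s₀ K) : ∃ C : ℝ, ∀ t, 0 ≤ t → t ≤ 1 → ∀ s, s₀ ≤ s →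
      |-En H (fun x => t * W s x) - V * k1 p * (t * c) ^ (p + 1) * s| ≤ C := by
  have hV0 := hV.nonneg (pos_semi hH) h hp
  obtain ⟨C, hC, h1⟩ := VF.energy_unif hH h hp hV0 hV hF.r_lt hc
  obtain ⟨S, hS0, hS⟩ := hF.bdd
  refine ⟨C + (MA H 0).real K * S + V * k1 p * c ^ (p + 1) * s₀, fun t h0 h2 s hs => ?_⟩
  have hG := hF.scale (pos_semi hH) h0 h2
  have htc := mul_nonneg h0 hc
  have htc' : t * c ≤ c := mul_le_of_le_one_left hc h2
  have h3 := h1 _ _ _ _ _ htc htc' hG s hs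
  have h4 := abs_le.1 (abs_En_le hH (hG.pp s₀ le_rfl) hF.cpt (hG.off s₀ le_rfl) (T := S)
    fun x _ => by
      rw [abs_mul, abs_of_nonneg h0]
      exact (mul_le_of_le_one_left (abs_nonneg _) h2).trans (hS x))
  have hk := k1_pos hp
  have h5 := hF.s_nonneg
  have h6 : V * k1 p * (t * c) ^ (p + 1) * s₀ ≤ V * k1 p * c ^ (p + 1) * s₀ := by gcongr
  have h7 : 0 ≤ V * k1 p * (t * c) ^ (p + 1) * s₀ := by positivity
  exact abs_le.2 ⟨by linarith [h3.1, h4.2], by linarith [h3.2, h4.1]⟩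

end

end Crest.Agent.X261.Pole2
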