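import Crest.Agent.X261.BT.MxR

/-!
# X261 / Pole2 (helper9): a Radon measure with vanishing derivatives is a multiple of the volume
-/

set_option autoImplicit false

open Set Filter Topology MeasureTheory Function
open scoped ContDiff

namespace Crest.Agent.X261.Pole2

open Crest.Agent.R275.Geo Crest.Agent.X261.BT

noncomputable section

variable {p : ℕ} {O : Set (Cn p)} {μ : Measure (Cn p)}

theorem haar_swap {Y : Type*} [MeasurableSpace Y] {ν : Measure Y} [SFinite ν] (h : Rad O μ)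
    {L : Set (Cn p)} (hL : IsCompact L) (hLO : L ⊆ O) {F : Y → Cn p → ℝ}
    (h0 : ∀ y w, w ∉ L → F y w = 0)
    (hF : IsFiniteMeasure (μ.restrict L) → Integrable (uncurry F) (ν.prod (μ.restrict L))) :
    ∫ y, ∫ w, F y w ∂μ ∂ν = ∫ w, ∫ y, F y w ∂ν ∂μ := by
  have : IsFiniteMeasure (μ.restrict L) := ⟨by
    rw [Measure.restrict_apply_univ]; exact h.fin L hL hLO⟩
  rw [← setIntegral_eq_integral_of_forall_compl_eq_zero (s := L)
    (f := fun w => ∫ y, F y w ∂ν) fun w hw => by simp [h0 _ w hw], ← integral_integral_swap (hF this)]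
  exact integral_congr_ae (Eventually.of_forall fun y =>
    (setIntegral_eq_integral_of_forall_compl_eq_zero fun w hw => h0 y w hw).symm)

theorem haar_shift (h : Rad O μ)
    (h0 : ∀ φ, ContDiff ℝ ∞ φ → Tst O φ → ∀ v, ∫ w, fderiv ℝ φ w v ∂μ = 0) {φ : Cn p → ℝ}
    (hs : ContDiff ℝ ∞ φ) {K : Set (Cn p)} (hK : IsCompact K) (hz : ∀ w, w ∉ K → φ w = 0)
    {a : Cn p} (ha : ∀ t ∈ Icc (0 : ℝ) 1, ∀ w ∈ K, w + t • a ∈ O) :
    ∫ w, φ (w - a) ∂μ = ∫ w, φ w ∂μ := by
  have hc : HasCompactSupport φ := HasCompactSupport.intro hK hz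
  have hL : IsCompact ((fun q : ℝ × Cn p => q.2 + q.1 • a) '' Icc 0 1 ×ˢ K) :=
    (isCompact_Icc.prod hK).image (by fun_prop)
  have hLO : (fun q : ℝ × Cn p => q.2 + q.1 • a) '' Icc 0 1 ×ˢ K ⊆ O := by
    rintro _ ⟨q, hq, rfl⟩; exact ha _ hq.1 _ hq.2
  have hn : ∀ t ∈ Icc (0 : ℝ) 1, ∀ w, w ∉ (fun q : ℝ × Cn p => q.2 + q.1 • a) '' Icc 0 1 ×ˢ K →
      w - t • a ∉ K := fun t ht w hw h1 => hw ⟨(t, w - t • a), ⟨ht, h1⟩, by simp⟩
  have ht : ∀ t ∈ Icc (0 : ℝ) 1, Tst O fun w => φ (w - t • a) := fun t ht =>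
    Tst.of_cpt (hs.continuous.comp (by fun_prop)) hL hLO fun w hw => hz _ (hn t ht w hw)
  have hd : Continuous fun w => fderiv ℝ φ w a :=
    (hs.continuous_fderiv (by simp)).clm_apply continuous_const
  obtain ⟨C, hC⟩ := hd.bounded_above_of_compact_support (hc.fderiv_apply ℝ a)
  have h1 : ∀ w, ∫ t in Ioc (0 : ℝ) 1, fderiv ℝ φ (w - t • a) a = φ w - φ (w - a) := fun w => by
    have h2 := intervalIntegral.integral_eq_sub_of_hasDerivAt (a := 0) (b := 1)
      (f := fun t : ℝ => -φ (w - t • a)) (f' := fun t => fderiv ℝ φ (w - t • a) a)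
      (fun t _ => by
        have h3 := (hs.differentiable (by simp) (w - t • a)).hasFDerivAt.comp_hasDerivAt t
          (((hasDerivAt_id t).smul_const a).const_sub w)
        simpa using h3.fun_neg)
      ((hd.comp (by fun_prop)).intervalIntegrable _ _)
    rw [intervalIntegral.integral_of_le zero_le_one] at h2
    rw [h2]
    simp only [one_smul, zero_smul, sub_zero]
    ring
  have h2 := haar_swap (ν := volume.restrict (Ioc (0 : ℝ) 1)) h hL hLO
    (F := fun t w => (Icc (0 : ℝ) 1).indicator (fun t => fderiv ℝ φ (w - t • a) a) t)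
    (fun t w hw => indicator_apply_eq_zero.2 fun ht => by
      rw [fderiv_of_notMem_tsupport ℝ fun h3 => hn t ht w hw
        (closure_minimal (s := support φ) (fun x hx => not_not.1 fun h4 => hx (hz x h4)) hK.isClosed h3)]
      rfl)
    fun _ => Integrable.of_bound (C := |C|) (Measurable.aestronglyMeasurable
      ((hd.comp (by fun_prop : Continuous fun q : ℝ × Cn p => q.2 - q.1 • a)).measurable.indicator
        (measurable_fst measurableSet_Icc))) (Eventually.of_forall fun q =>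
      (norm_indicator_le_norm_self (s := Icc (0 : ℝ) 1) (fun t => fderiv ℝ φ (q.2 - t • a) a)
        q.1).trans ((hC _).trans (le_abs_self C)))
  have h3 : ∀ w, ∫ t in Ioc (0 : ℝ) 1, (Icc (0 : ℝ) 1).indicator
      (fun t => fderiv ℝ φ (w - t • a) a) t = φ w - φ (w - a) := fun w => by
    rw [← h1 w]
    exact setIntegral_congr_fun measurableSet_Ioc fun t ht =>
      indicator_of_mem (Ioc_subset_Icc_self ht) _
  simp only [h3] at h2
  rw [setIntegral_eq_zero_of_forall_eq_zero fun t ht' => ?_] at h2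
  · have i0 := h.int (ht 0 ⟨le_rfl, zero_le_one⟩)
    have i1 := h.int (ht 1 ⟨zero_le_one, le_rfl⟩)
    simp only [zero_smul, sub_zero, one_smul] at i0 i1
    rw [integral_sub i0 i1] at h2
    linarith
  · simp only [indicator_of_mem (Ioc_subset_Icc_self ht')]
    rw [← h0 (fun w => φ (w - t • a)) (hs.comp (contDiff_id.sub contDiff_const))
      (ht t (Ioc_subset_Icc_self ht')) a]
    refine integral_congr_ae (Eventually.of_forall fun w => ?_)
    simp only [fderiv_comp_sub]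

theorem haar_symm (hc : Convex ℝ O) (h : Rad O μ)
    (h0 : ∀ φ, ContDiff ℝ ∞ φ → Tst O φ → ∀ v, ∫ w, fderiv ℝ φ w v ∂μ = 0) {φ ψ : Cn p → ℝ}
    (s1 : ContDiff ℝ ∞ φ) (t1 : Tst O φ) (s2 : ContDiff ℝ ∞ ψ) (t2 : Tst O ψ) :
    (∫ w, ψ w ∂μ) * ∫ w, φ w = (∫ w, φ w ∂μ) * ∫ w, ψ w := by
  have z1 : ∀ w, w ∉ tsupport φ → φ w = 0 := fun _ => image_eq_zero_of_notMem_tsupport
  have z2 : ∀ w, w ∉ tsupport ψ → ψ w = 0 := fun _ => image_eq_zero_of_notMem_tsupport
  have h1 : ∀ a, ∫ w, φ (w - a) * ψ w ∂μ = ∫ w, φ w * ψ (w + a) ∂μ := fun a => by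
    have h2 := haar_shift h h0 (φ := fun w => φ w * ψ (w + a))
      (s1.mul (s2.comp (contDiff_id.add contDiff_const))) (a := a)
      (t1.cpt.inter_right ((isClosed_tsupport ψ).preimage (continuous_add_const a)))
      (fun w hw => by
        by_cases h3 : w ∈ tsupport φ
        · rw [z2 _ fun h4 => hw ⟨h3, h4⟩, mul_zero]
        · rw [z1 _ h3, zero_mul])
      fun t ht w hw => hc.add_smul_mem (t1.sub hw.1) (t2.sub hw.2) ht
    simpa only [sub_add_cancel] using h2
  have hS : IsCompact ((fun q : Cn p × Cn p => q.2 - q.1) '' tsupport φ ×ˢ tsupport ψ) :=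
    (t1.cpt.isCompact.prod t2.cpt).image (by fun_prop)
  have h2 := haar_swap (ν := volume) h t2.cpt t2.sub (F := fun a w => φ (w - a) * ψ w)
    (fun a w hw => by rw [z2 w hw, mul_zero]) fun _ =>
    Continuous.integrable_of_hasCompactSupport
      ((t1.cont.comp (by fun_prop)).mul (t2.cont.comp continuous_snd))
      (HasCompactSupport.intro (hS.prod t2.cpt) fun q hq => by
        by_cases h3 : q.2 ∈ tsupport ψ
        · rw [uncurry, z1 _ fun h4 => hq ⟨⟨(q.2 - q.1, q.2), ⟨h4, h3⟩, by simp⟩, h3⟩, zero_mul]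
        · rw [uncurry, z2 _ h3, mul_zero])
  have h3 := haar_swap (ν := volume) h t1.cpt t1.sub (F := fun a w => φ w * ψ (w + a))
    (fun a w hw => by rw [z1 w hw, zero_mul]) fun _ =>
    Continuous.integrable_of_hasCompactSupport
      ((t1.cont.comp continuous_snd).mul (t2.cont.comp (by fun_prop)))
      (HasCompactSupport.intro (hS.prod t1.cpt) fun q hq => by
        by_cases h3 : q.2 ∈ tsupport φ
        · rw [uncurry, z2 _ fun h4 => hq ⟨⟨(q.2, q.2 + q.1), ⟨h3, h4⟩, by simp⟩, h3⟩, mul_zero]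
        · rw [uncurry, z1 _ h3, zero_mul])
  simp only [h1] at h2
  rw [h2] at h3
  simp only [integral_mul_const, integral_const_mul, integral_sub_left_eq_self,
    integral_add_left_eq_self] at h3
  linarith

theorem exists_haar (hO : IsOpen O) (hc : Convex ℝ O) (h : Rad O μ)
    (h0 : ∀ φ, ContDiff ℝ ∞ φ → Tst O φ → ∀ v, ∫ w, fderiv ℝ φ w v ∂μ = 0) :
    ∃ V, 0 ≤ V ∧ ∀ g, Tst O g → ∫ w, g w ∂μ = V * ∫ w, g w := by
  rcases O.eq_empty_or_nonempty with rfl | ⟨x, hx⟩
  · exact ⟨0, le_rfl, fun g hg => by simp [show g = fun _ => 0 from funext fun w => hg.zero_off id]⟩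
  obtain ⟨χ, s, t, h1, h2, -⟩ := exists_cut isCompact_singleton hO (singleton_subset_iff.2 hx)
  have h3 : 0 < ∫ w, χ w := t.cont.integral_pos_of_hasCompactSupport_nonneg_nonzero t.cpt h2
    (by rw [h1.self_of_nhdsSet x rfl]; exact one_ne_zero)
  have h4 : 0 ≤ (∫ w, χ w ∂μ) / ∫ w, χ w := div_nonneg (integral_nonneg h2) h3.le
  refine ⟨_, h4, fun g hg => ?_⟩
  obtain ⟨K, hK, hKO, H⟩ := exists_smooth_near hO hg
  set V := (∫ w, χ w ∂μ) / ∫ w, χ w with hV
  refine sub_eq_zero.1 (abs_nonpos_iff.1 (le_of_forall_pos_le_add fun ε hε => ?_))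
  have hp : 0 < μ.real K + V * volume.real K + 1 := by positivity
  obtain ⟨g', s', t', a1, a2⟩ := H _ (div_pos hε hp)
  have hv : Rad univ (volume : Measure (Cn p)) :=
    ⟨by rw [compl_univ, measure_empty], fun K hK _ => hK.measure_lt_top⟩
  have a3 := h.abs_int_le hK hKO (fun z _ => a1 z) a2
  have a4 := hv.abs_int_le hK (subset_univ _) (fun z _ => a1 z) a2
  rw [integral_sub (h.int hg) (h.int t')] at a3
  rw [integral_sub (hv.int (hg.mono (subset_univ _))) (hv.int (t'.mono (subset_univ _)))] at a4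
  have a5 : ∫ w, g' w ∂μ = V * ∫ w, g' w := by
    rw [hV, div_mul_eq_mul_div, eq_div_iff h3.ne', haar_symm hc h h0 s t s' t']
  have a6 : ∫ w, g w ∂μ - V * ∫ w, g w =
      (∫ w, g w ∂μ - ∫ w, g' w ∂μ) - V * ((∫ w, g w) - ∫ w, g' w) := by rw [a5]; ring
  rw [a6, zero_add]
  refine (abs_sub _ _).trans ?_
  rw [abs_mul, abs_of_nonneg h4]
  refine (add_le_add a3 (mul_le_mul_of_nonneg_left a4 h4)).trans ?_
  rw [mul_left_comm, ← mul_add, div_mul_eq_mul_div, div_le_iff₀ hp]
  nlinarith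

end

end Crest.Agent.X261.Pole2
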