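import Crest.Agent.X261.BT.MxA

/-!
# Row 261, package Pole2 (helper32), file `Rk`: mixed determinants with slots of small rank

`sl X G` : the tuple `(X 0, …, X (p-1), G, …, G)`; `c0 J G` : the mixed determinant of the rank one
matrices of the rows of `J` and of `G`;  `rk_bound` : `det (G + Jᵀ F J̄) = b det F c0 + O(Λ^{p-1})`;
`md_slot`, `c0_pos`.
-/

set_option autoImplicit false

open Set Filter Topology Complex Function Matrix
open scoped ComplexConjugate ComplexOrder MatrixOrder

namespace Crest.Agent.X261.Pole2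

open Crest.Agent.X261.BT

noncomputable section

variable {n p : ℕ}

/-- the tuple `(X 0, …, X (p-1), G, …, G)` -/
def sl {α : Type*} (X : Fin p → α) (G : α) : Fin n → α :=
  fun k => if h : (k : ℕ) < p then X ⟨k, h⟩ else G

section sl

variable {α β γ : Type*}

theorem sl_e (hpn : p ≤ n) (X : Fin p → α) (G : α) (i : Fin p) :
    sl X G (Fin.castLE hpn i) = X i := by simp [sl]

theorem sl_ge (X : Fin p → α) (G : α) {k : Fin n} (h : p ≤ k) : sl X G k = G := by
  simp [sl, h.not_gt]

theorem sl_cases (hpn : p ≤ n) (k : Fin n) : (∃ i, k = Fin.castLE hpn i) ∨ p ≤ k := by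
  rcases lt_or_ge (k : ℕ) p with h | h
  · exact Or.inl ⟨⟨k, h⟩, rfl⟩
  · exact Or.inr h

theorem sl_update (hpn : p ≤ n) (X : Fin p → α) (G Y : α) (i : Fin p) :
    update (sl X G) (Fin.castLE hpn i) Y = sl (update X i Y) G := by
  funext k
  rcases sl_cases hpn k with ⟨j, rfl⟩ | h
  · rcases eq_or_ne j i with rfl | hj
    · rw [update_self, sl_e, update_self]
    · rw [update_of_ne ((Fin.castLE_injective hpn).ne hj), sl_e, sl_e, update_of_ne hj]
  · rw [update_of_ne, sl_ge _ _ h, sl_ge _ _ h]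
    rintro rfl
    exact absurd i.isLt h.not_gt

theorem sl_map₂ (f : α → β → γ) (X : Fin p → α) (G : α) (Y : Fin p → β) (G' : β) (k : Fin n) :
    f (sl X G k) (sl Y G' k) = sl (fun i => f (X i) (Y i)) (f G G') k := by
  unfold sl; split_ifs <;> rfl

theorem sl_prop₂ {P : α → β → Prop} {X : Fin p → α} {G : α} {Y : Fin p → β} {G' : β}
    (h : ∀ i, P (X i) (Y i)) (h' : P G G') (k : Fin n) : P (sl X G k) (sl Y G' k) := by
  unfold sl; split_ifs
  exacts [h _, h']

theorem sl_prop {P : α → Prop} {X : Fin p → α} {G : α} (h : ∀ i, P (X i)) (h' : P G) (k : Fin n) :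
    P (sl X G k) := by
  unfold sl; split_ifs
  exacts [h _, h']

theorem prod_sl (hpn : p ≤ n) (d : Fin p → ℂ) : ∏ k : Fin n, sl d 1 k = ∏ i, d i := by
  rw [← Finset.prod_subset (Finset.subset_univ (Finset.univ.map (Fin.castLEEmb hpn))),
    Finset.prod_map]
  · exact Finset.prod_congr rfl fun i _ => sl_e hpn d 1 i
  · intro k _ hk
    rcases sl_cases hpn k with ⟨j, rfl⟩ | h
    · exact absurd (Finset.mem_map.2 ⟨j, Finset.mem_univ _, rfl⟩) hk
    · exact sl_ge _ _ h

end sl

theorem md_smul_all (d : Fin n → ℂ) (X : Fin n → MC n) :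
    md (fun k => d k • X k) = (∏ k, d k) * md X := by
  simp only [md, Matrix.smul_apply, smul_eq_mul, Finset.prod_mul_distrib, Finset.mul_sum]
  exact Finset.sum_congr rfl fun s _ => Finset.sum_congr rfl fun t _ => by ring

theorem md_sum {ι : Type*} [Fintype ι] [DecidableEq ι] (X : ι → MC n) :
    md (fun _ => ∑ i, X i) = ∑ φ : Fin n → ι, md fun k => X (φ k) := by
  simp only [md, Matrix.sum_apply, Finset.prod_univ_sum, Fintype.piFinset_univ, Finset.mul_sum]
  rw [Finset.sum_comm (s := (Finset.univ : Finset (Fin n → ι)))]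
  refine Finset.sum_congr rfl fun s _ => ?_
  rw [Finset.sum_comm]

theorem md_update_sum {ι : Type*} (t : Finset ι) (G : Fin n → MC n) (k : Fin n) (X : ι → MC n) :
    md (update G k (∑ i ∈ t, X i)) = ∑ i ∈ t, md (update G k (X i)) := by
  classical
  induction t using Finset.induction_on with
  | empty => simp [md_update_zero]
  | insert a t ha ih => rw [Finset.sum_insert ha, Finset.sum_insert ha, md_update_add, ih]

theorem md_mono_all {X Y : Fin n → MC n} (hX : ∀ k, (X k).PosSemidef)
    (h : ∀ k, (Y k - X k).PosSemidef) : (md X).re ≤ (md Y).re := by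
  have hY : ∀ k, (Y k).PosSemidef := fun k => by simpa using (hX k).add (h k)
  have key : ∀ s : Finset (Fin n), (md X).re ≤ (md (s.piecewise Y X)).re := fun s => by
    induction s using Finset.induction_on with
    | empty => rw [Finset.piecewise_empty]
    | insert k s hk ih =>
      rw [Finset.piecewise_insert]
      refine ih.trans (le_trans (le_of_eq ?_) (md_mono (X := X k) (fun l _ => ?_) (h k)))
      · rw [← Finset.piecewise_eq_of_notMem s Y X hk, update_eq_self]
      · by_cases hl : l ∈ s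
        · rw [Finset.piecewise_eq_of_mem _ _ _ hl]; exact hY l
        · rw [Finset.piecewise_eq_of_notMem _ _ _ hl]; exact hX l
  simpa using key Finset.univ

/-- two rank one slots with the same left vector -/
theorem md_left {X : Fin n → MC n} {k l : Fin n} (hkl : k ≠ l) {a b b' : Fin n → ℂ}
    (hk : X k = vecMulVec a b) (hl : X l = vecMulVec a b') : md X = 0 := by
  rw [md_eq]
  refine Finset.sum_eq_zero fun t _ => mul_eq_zero_of_right _ ?_
  set Y : MC n := Matrix.of fun c m => X m c (t m) with hY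
  have h1 : Y = (Y.updateCol k (b (t k) • a)).updateCol l (b' (t l) • a) := by
    ext c m
    rcases eq_or_ne m l with rfl | h1
    · simp [hY, hl, vecMulVec_apply, mul_comm]
    rcases eq_or_ne m k with rfl | h2
    · simp [hY, hk, vecMulVec_apply, mul_comm, updateCol_ne h1]
    · rw [updateCol_ne h1, updateCol_ne h2]
  rw [h1, det_updateCol_smul, updateCol_comm _ hkl, det_updateCol_smul,
    det_zero_of_column_eq hkl fun c => by simp [updateCol_ne hkl.symm]]
  simp

theorem md_right {X : Fin n → MC n} {k l : Fin n} (hkl : k ≠ l) {a a' b : Fin n → ℂ}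
    (hk : X k = vecMulVec a b) (hl : X l = vecMulVec a' b) : md X = 0 := by
  rw [← md_transpose]
  exact md_left hkl (a := b) (b := a) (b' := a') (by rw [hk, transpose_vecMulVec])
    (by rw [hl, transpose_vecMulVec])

/-- the bilinear version of `c0` -/
def cc (J K : Matrix (Fin p) (Fin n) ℂ) (G : MC n) : ℂ :=
  md (sl (fun i => vecMulVec (J i) (K i)) G)

theorem cc_left (hpn : p ≤ n) (B : MC p) (J K : Matrix (Fin p) (Fin n) ℂ) (G : MC n) :
    cc (B * J) K G = B.det * cc J K G := by
  induction B using Matrix.diagonal_transvection_induction generalizing J with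
  | hdiag D _ =>
    rw [det_diagonal, ← prod_sl hpn, cc, cc, ← md_smul_all]
    congr 1
    funext k
    rw [sl_map₂ (fun (d : ℂ) (Y : MC n) => d • Y), one_smul]
    congr 1
    funext i
    ext a b
    simp [vecMulVec_apply, mul_assoc]
  | htransvec t =>
    obtain ⟨i, j, hij, c⟩ := t
    have h1 : (fun l => vecMulVec ((transvection i j c * J) l) (K l)) =
        update (fun l => vecMulVec (J l) (K l)) i
          (vecMulVec (J i) (K i) + c • vecMulVec (J j) (K i)) := by
      funext l
      rcases eq_or_ne l i with rfl | hl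
      · ext a b
        simp [vecMulVec_apply, add_mul, mul_assoc]
      · ext a b
        simp [vecMulVec_apply, hl]
    rw [TransvectionStruct.det, one_mul, TransvectionStruct.toMatrix_mk, cc, h1, ← sl_update hpn,
      md_update_add, md_update_smul, ← sl_e hpn (fun l => vecMulVec (J l) (K l)) G i,
      update_eq_self, md_left ((Fin.castLE_injective hpn).ne hij) (update_self ..)
        (by rw [update_of_ne ((Fin.castLE_injective hpn).ne hij.symm), sl_e]),
      mul_zero, add_zero, cc]
  | hmul B C hB hC => rw [Matrix.mul_assoc, hB, hC, det_mul, mul_assoc]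

theorem cc_transpose (J K : Matrix (Fin p) (Fin n) ℂ) (G : MC n) : cc K J Gᵀ = cc J K G := by
  rw [cc, cc, ← md_transpose]
  congr 1
  funext k
  unfold sl
  split_ifs <;> simp

theorem cc_right (hpn : p ≤ n) (B : MC p) (J K : Matrix (Fin p) (Fin n) ℂ) (G : MC n) :
    cc J (B * K) G = B.det * cc J K G := by
  rw [← cc_transpose, cc_left hpn, cc_transpose]

/-- the pull-back `Jᵀ F J̄` -/
def pb (J : Matrix (Fin p) (Fin n) ℂ) (F : MC p) : MC n := Jᵀ * F * J.map conj

/-- the rank one matrix of a row -/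
def rk (J : Matrix (Fin p) (Fin n) ℂ) (i : Fin p) : MC n := vecMulVec (J i) (J.map conj i)

/-- the density of `dd^c |π_1|² ∧ … ∧ dd^c |π_p|² ∧ ω^r` -/
def c0 (J : Matrix (Fin p) (Fin n) ℂ) (G : MC n) : ℝ := (md (sl (rk J) G)).re

theorem rk_psd (J : Matrix (Fin p) (Fin n) ℂ) (i : Fin p) : (rk J i).PosSemidef :=
  posSemidef_vecMulVec_self_star (J i)

theorem pb_psd (J : Matrix (Fin p) (Fin n) ℂ) {F : MC p} (hF : F.PosSemidef) :
    (pb J F).PosSemidef := hF.mul_mul_conjTranspose_same Jᵀ

theorem pb_sum (J : Matrix (Fin p) (Fin n) ℂ) (F : MC p) :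
    pb J F = ∑ a, ∑ b, F a b • vecMulVec (J a) (J.map conj b) := by
  ext c d
  simp only [pb, Matrix.mul_apply, Matrix.sum_apply, Finset.sum_mul, transpose_apply,
    Matrix.smul_apply, vecMulVec_apply, smul_eq_mul]
  rw [Finset.sum_comm]
  exact Finset.sum_congr rfl fun a _ => Finset.sum_congr rfl fun b _ => by ring

theorem pb_one (J : Matrix (Fin p) (Fin n) ℂ) : pb J 1 = ∑ i, rk J i := by
  rw [pb_sum]
  simp [Matrix.one_apply, rk]

theorem c0_nonneg (J : Matrix (Fin p) (Fin n) ℂ) {G : MC n} (hG : G.PosSemidef) : 0 ≤ c0 J G :=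
  md_re_nonneg (sl_prop (P := PosSemidef) (rk_psd J) hG)

/-- a pulled back matrix in one of the rank one slots -/
theorem md_slot (hpn : p ≤ n) (J : Matrix (Fin p) (Fin n) ℂ) (G : MC n) (F : MC p) (i : Fin p) :
    md (update (sl (rk J) G) (Fin.castLE hpn i) (pb J F)) = F i i * md (sl (rk J) G) := by
  have hne : ∀ {a : Fin p}, a ≠ i → Fin.castLE hpn i ≠ Fin.castLE hpn a := fun h =>
    (Fin.castLE_injective hpn).ne h.symm
  rw [pb_sum, md_update_sum, Finset.sum_eq_single i, md_update_sum, Finset.sum_eq_single i,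
    md_update_smul]
  · rw [show vecMulVec (J i) (J.map conj i) = sl (rk J) G (Fin.castLE hpn i) from
      (sl_e hpn (rk J) G i).symm, update_eq_self]
  · intro b _ hb
    rw [md_update_smul, md_right (hne hb) (update_self ..)
      (by rw [update_of_ne (hne hb).symm, sl_e]; rfl), mul_zero]
  · simp
  · intro a _ ha
    rw [md_update_sum]
    refine Finset.sum_eq_zero fun b _ => ?_
    rw [md_update_smul, md_left (hne ha) (update_self ..)
      (by rw [update_of_ne (hne ha).symm, sl_e]; rfl), mul_zero]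
  · simp

/-- no index is used twice -/
def Inj (φ : Fin n → Option (Fin p)) : Prop := ∀ k l i, φ k = some i → φ l = some i → k = l

/-- every index is used -/
def Sur (φ : Fin n → Option (Fin p)) : Prop := ∀ i, ∃ k, φ k = some i

open Classical in
/-- the combinatorial constant -/
def bb (n p : ℕ) : ℕ := (Finset.univ.filter fun φ : Fin n → Option (Fin p) => Inj φ ∧ Sur φ).card

theorem bb_pos (hpn : p ≤ n) : 0 < bb n p := by
  classical
  refine Finset.card_pos.2 ⟨sl some none, Finset.mem_filter.2 ⟨Finset.mem_univ _, ?_, fun i =>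
    ⟨_, sl_e hpn _ _ i⟩⟩⟩
  have h : ∀ k i, (sl some none : Fin n → Option (Fin p)) k = some i → k = Fin.castLE hpn i := by
    intro k i hk
    rcases sl_cases hpn k with ⟨j, rfl⟩ | h
    · rw [sl_e, Option.some_inj] at hk; rw [hk]
    · rw [sl_ge _ _ h] at hk; exact absurd hk (by simp)
  exact fun k l i hk hl => (h k i hk).trans (h l i hl).symm

theorem term_good (hpn : p ≤ n) (R : Fin p → MC n) (G : MC n) {φ : Fin n → Option (Fin p)}
    (h1 : Inj φ) (h2 : Sur φ) : md (fun k => (φ k).elim G R) = md (sl R G) := by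
  choose g hg using h2
  have hi : Injective g := fun i j h => by
    have := hg i; rw [h, hg j, Option.some_inj] at this; exact this.symm
  obtain ⟨σ, hσ⟩ := Equiv.Perm.exists_extending_pair _ g (Fin.castLE_injective hpn) hi
  rw [← md_perm _ σ]
  congr 1
  funext k
  rcases sl_cases hpn k with ⟨j, rfl⟩ | h
  · rw [hσ, hg, sl_e]; rfl
  · rw [sl_ge _ _ h]
    cases h3 : φ (σ k) with
    | none => rfl
    | some i =>
      have h4 := σ.injective ((h1 _ _ i h3 (hg i)).trans (hσ i).symm)
      subst h4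
      exact absurd i.isLt h.not_gt

theorem term_small {R : Fin p → MC n} {G N : MC n} (hG : G.PosSemidef) (hN : N.PosSemidef)
    (hR : ∀ i, (R i).PosSemidef) {Λ : ℝ} (hΛ : 0 ≤ Λ) (hRN : ∀ i, ((Λ : ℂ) • N - R i).PosSemidef)
    {φ : Fin n → Option (Fin p)} (h1 : Inj φ) (h2 : ¬ Sur φ) :
    (md fun k => (φ k).elim G R).re ≤ (1 + Λ) ^ (p - 1) * (md fun _ => G + N).re := by
  classical
  obtain ⟨i0, hi0⟩ := not_forall.1 h2
  set d : Fin n → ℝ := fun k => if φ k ≠ none then 1 + Λ else 1 with hd
  have h3 : (md fun k => (φ k).elim G R).re ≤ (md fun k => (d k : ℂ) • (G + N)).re := by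
    refine md_mono_all (fun k => ?_) fun k => ?_
    · cases φ k with
      | none => exact hG
      | some i => exact hR i
    · cases h4 : φ k with
      | none => simpa [hd, h4] using hN
      | some i =>
        have e : (d k : ℂ) • (G + N) - R i = ((1 + Λ : ℝ) : ℂ) • G + N + ((Λ : ℂ) • N - R i) := by
          simp only [hd, h4, ne_eq, reduceCtorEq, not_false_eq_true, if_true]
          push_cast
          module
        rw [Option.elim_some, e]
        exact ((hG.smul (by exact_mod_cast (by linarith : 0 ≤ 1 + Λ))).add hN).add (hRN i)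
  have h4 : (Finset.univ.filter fun k => φ k ≠ none).card ≤ p - 1 := by
    have := Finset.card_le_card_of_injOn (s := Finset.univ.filter fun k => φ k ≠ none)
      (t := (Finset.univ.erase i0).map Function.Embedding.some) φ (fun k hk => by
        obtain ⟨i, hi⟩ := Option.ne_none_iff_exists'.1 (Finset.mem_filter.1 hk).2
        refine Finset.mem_coe.2 (Finset.mem_map.2 ⟨i, Finset.mem_erase.2 ⟨?_, Finset.mem_univ _⟩,
          hi.symm⟩)
        rintro rfl
        exact hi0 ⟨k, hi⟩) (fun k hk l _ hkl => by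
        obtain ⟨i, hi⟩ := Option.ne_none_iff_exists'.1 (Finset.mem_filter.1 hk).2
        exact h1 k l i hi (hkl ▸ hi))
    simpa using this
  rw [md_smul_all, ← ofReal_prod, re_ofReal_mul] at h3
  refine h3.trans (mul_le_mul_of_nonneg_right ?_ (md_re_nonneg fun _ => hG.add hN))
  rw [hd, Finset.prod_ite, Finset.prod_const, Finset.prod_const_one, mul_one]
  exact pow_le_pow_right₀ (by linarith) h4

/-- **the expansion** -/
theorem rk_bound (hpn : p ≤ n) (J : Matrix (Fin p) (Fin n) ℂ) {G : MC n} (hG : G.PosSemidef)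
    {F : MC p} (hF : F.PosSemidef) {Λ : ℝ} (hΛ : 0 ≤ Λ) (hFΛ : ((Λ : ℂ) • 1 - F).PosSemidef) :
    bb n p * F.det.re * c0 J G ≤ (md fun _ => G + pb J F).re ∧
      (md fun _ => G + pb J F).re ≤ bb n p * F.det.re * c0 J G +
        (p + 1) ^ n * ((1 + Λ) ^ (p - 1) * (md fun _ => G + pb J 1).re) := by
  classical
  obtain ⟨C, hC⟩ := CStarAlgebra.nonneg_iff_eq_star_mul_self.mp hF.nonneg
  set v : Matrix (Fin p) (Fin n) ℂ := C.map conj * J with hv
  have hv' : v.map conj = C * J.map conj := by
    rw [hv, Matrix.map_mul]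
    congr 1
    ext a b; simp
  have h1 : pb J F = ∑ i, rk v i := by
    rw [← pb_one, pb, pb, hv', hv, hC, transpose_mul, Matrix.mul_one]
    simp only [Matrix.mul_assoc]
    rfl
  have h2 : (md (sl (rk v) G)).re = F.det.re * c0 J G := by
    have h3 : md (sl (rk v) G) = cc v (v.map conj) G := rfl
    have h4 : (C.map conj).det = conj C.det := ((starRingEnd ℂ).map_det C).symm
    have h5 : F.det = (normSq C.det : ℝ) := by
      rw [hC, det_mul, star_eq_conjTranspose, det_conjTranspose, normSq_eq_conj_mul_self]; rfl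
    rw [h3, hv', cc_right hpn, hv, cc_left hpn, h4, ← mul_assoc, mul_conj, re_ofReal_mul, h5,
      ofReal_re]
    rfl
  have h3 : G + pb J F = ∑ o : Option (Fin p), o.elim G (rk v) := by
    rw [Fintype.sum_option, h1]; rfl
  have hRN : ∀ i, ((Λ : ℂ) • pb J 1 - rk v i).PosSemidef := fun i => by
    have e : (Λ : ℂ) • pb J 1 - rk v i =
        pb J ((Λ : ℂ) • 1 - F) + ∑ j ∈ Finset.univ.erase i, rk v j := by
      have h4 : pb J ((Λ : ℂ) • 1 - F) = (Λ : ℂ) • pb J 1 - pb J F := by
        simp [pb, Matrix.mul_sub, Matrix.sub_mul]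
      rw [h4, h1, ← Finset.add_sum_erase _ _ (Finset.mem_univ i)]
      abel
    rw [e]
    exact (pb_psd J hFΛ).add (posSemidef_sum _ fun j _ => rk_psd v j)
  have h0 : ∀ φ : Fin n → Option (Fin p), 0 ≤ (md fun k => (φ k).elim G (rk v)).re := fun φ =>
    md_re_nonneg fun k => by
      cases φ k with
      | none => exact hG
      | some i => exact rk_psd v i
  have h4 : ∑ φ ∈ Finset.univ.filter (fun φ : Fin n → Option (Fin p) => Inj φ ∧ Sur φ),
      (md fun k => (φ k).elim G (rk v)).re = bb n p * F.det.re * c0 J G := by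
    rw [Finset.sum_congr rfl fun φ hφ => by
      rw [term_good hpn _ _ (Finset.mem_filter.1 hφ).2.1 (Finset.mem_filter.1 hφ).2.2, h2],
      Finset.sum_const, nsmul_eq_mul, mul_assoc, bb]
  have h5 : 0 ≤ (1 + Λ) ^ (p - 1) * (md fun _ => G + pb J 1).re :=
    mul_nonneg (by positivity) (md_re_nonneg fun _ => hG.add (pb_psd J PosSemidef.one))
  rw [h3, md_sum, re_sum, ← Finset.sum_filter_add_sum_filter_not _
    fun φ : Fin n → Option (Fin p) => Inj φ ∧ Sur φ, h4]
  refine ⟨le_add_of_nonneg_right (Finset.sum_nonneg fun φ _ => h0 φ), add_le_add le_rfl ?_⟩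
  refine (Finset.sum_le_card_nsmul _ _ ((1 + Λ) ^ (p - 1) * (md fun _ => G + pb J 1).re)
    fun φ hφ => ?_).trans ?_
  · by_cases hi : Inj φ
    · exact term_small hG (pb_psd J PosSemidef.one) (rk_psd v) hΛ hRN hi
        fun hs => (Finset.mem_filter.1 hφ).2 ⟨hi, hs⟩
    · simp only [Inj, not_forall] at hi
      obtain ⟨k, l, i, hk, hl, hkl⟩ := hi
      rw [md_left (X := fun k => (φ k).elim G (rk v)) hkl (a := v i) (by rw [hk]; rfl)
        (by rw [hl]; rfl)]
      exact h5
  · rw [nsmul_eq_mul]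
    refine mul_le_mul_of_nonneg_right ?_ h5
    have := Finset.card_filter_le (Finset.univ : Finset (Fin n → Option (Fin p)))
      fun φ => ¬ (Inj φ ∧ Sur φ)
    simp only [Finset.card_univ, Fintype.card_pi, Fintype.card_option, Fintype.card_fin,
      Finset.prod_const] at this
    exact_mod_cast this

theorem c0_pos (hp : 1 ≤ p) (hpn : p ≤ n) {J : Matrix (Fin p) (Fin n) ℂ}
    (hJ : Surjective J.mulVec) {G : MC n} (hG : G.PosDef) : 0 < c0 J G := by
  set S : MC p := J.map conj * G⁻¹ * Jᵀ with hS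
  have hS' : S.PosDef := by
    have h1 : Injective (J.map conj).vecMul := by
      intro x y hxy
      rw [← sub_eq_zero]
      obtain ⟨u, hu⟩ := hJ (x - y)
      have h2 : (x - y) ᵥ* J.map conj = 0 := by rw [sub_vecMul]; exact sub_eq_zero.2 hxy
      have h3 : (x - y) ⬝ᵥ star (x - y) = 0 := by
        have h4 : star (J *ᵥ u) = J.map conj *ᵥ star u := by
          ext a; simp [mulVec, dotProduct]
        nth_rewrite 2 [← hu]
        rw [h4, dotProduct_mulVec, h2, zero_dotProduct]
      exact dotProduct_self_star_eq_zero.1 h3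
    have h2 := hG.inv.mul_mul_conjTranspose_same h1
    rwa [show (J.map conj)ᴴ = Jᵀ by ext a b; simp] at h2
  have hd : ∀ ε : ℝ, 0 < ε → (G + pb J ((ε⁻¹ : ℝ) • (1 : MC p))).det =
      G.det * ((ε⁻¹ ^ p : ℝ) * ((ε : ℂ) • (1 : MC p) + S).det) := fun ε hε => by
    have hu : IsUnit G.det := (isUnit_iff_isUnit_det G).1 hG.isUnit
    have e1 : G + pb J ((ε⁻¹ : ℝ) • (1 : MC p)) =
        G * (1 + (G⁻¹ * Jᵀ) * (((ε⁻¹ : ℝ) : ℂ) • J.map conj)) := by
      rw [Matrix.mul_add, Matrix.mul_one, ← Matrix.mul_assoc, ← Matrix.mul_assoc,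
        mul_nonsing_inv _ hu, Matrix.one_mul, pb, Complex.coe_smul]
      simp
    have e2 : 1 + (((ε⁻¹ : ℝ) : ℂ) • J.map conj) * (G⁻¹ * Jᵀ) =
        ((ε⁻¹ : ℝ) : ℂ) • ((ε : ℂ) • (1 : MC p) + S) := by
      rw [smul_add, smul_smul, ← ofReal_mul, inv_mul_cancel₀ hε.ne', ofReal_one, one_smul,
        Matrix.smul_mul, hS, Matrix.mul_assoc]
    rw [e1, det_mul, det_one_add_mul_comm, e2, det_smul, Fintype.card_fin, ofReal_pow]
  set C := (p + 1) ^ n * (md fun _ => G + pb J 1).re with hC
  have key : ∀ ε : ℝ, 0 < ε → n.factorial * (G.det * ((ε : ℂ) • (1 : MC p) + S).det).re ≤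
      bb n p * c0 J G + ε * (ε + 1) ^ (p - 1) * C := fun ε hε => by
    have h0 : (0 : ℝ) ≤ ε⁻¹ := by positivity
    have h1 := (rk_bound hpn J hG.posSemidef (F := (ε⁻¹ : ℝ) • (1 : MC p))
      (PosSemidef.one.smul h0) h0 (by rw [Complex.coe_smul, sub_self]; exact PosSemidef.zero)).2
    rw [md_same, hd ε hε, mul_left_comm G.det, ← ofReal_natCast, re_ofReal_mul, re_ofReal_mul,
      ← Complex.coe_smul, det_smul, det_one, mul_one, Fintype.card_fin, ← ofReal_pow,
      ofReal_re] at h1
    obtain ⟨q, rfl⟩ : ∃ q, p = q + 1 := ⟨p - 1, by omega⟩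
    have h2 := mul_le_mul_of_nonneg_left h1 (pow_pos hε (q + 1)).le
    refine le_trans (le_of_eq ?_) (h2.trans (le_of_eq ?_))
    · rw [inv_pow]; field_simp
    · rw [hC, Nat.add_sub_cancel, show 1 + ε⁻¹ = (ε + 1) * ε⁻¹ by field_simp, mul_pow, inv_pow,
        inv_pow]
      field_simp
      ring
  have c1 : Continuous fun ε : ℝ =>
      n.factorial * (G.det * ((ε : ℂ) • (1 : MC p) + S).det).re := by fun_prop
  have c2 : Continuous fun ε : ℝ => bb n p * c0 J G + ε * (ε + 1) ^ (p - 1) * C := by fun_prop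
  have h1 := le_of_tendsto_of_tendsto (b := 𝓝[>] (0 : ℝ))
    (c1.continuousAt.tendsto.mono_left nhdsWithin_le_nhds)
    (c2.continuousAt.tendsto.mono_left nhdsWithin_le_nhds) (eventually_mem_nhdsWithin.mono key)
  simp only [ofReal_zero, zero_smul, zero_add, zero_mul, add_zero] at h1
  have h2 : 0 < (G.det * S.det).re := (Complex.pos_iff.1 (mul_pos hG.det_pos hS'.det_pos)).1
  have h3 : (0 : ℝ) < n.factorial := by exact_mod_cast n.factorial_pos
  exact pos_of_mul_pos_right (lt_of_lt_of_le (mul_pos h3 h2) h1) (Nat.cast_nonneg _)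

end

end Crest.Agent.X261.Pole2
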