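import Crest.Agent.X261.Pole2.Mod
import Crest.Agent.X261.BT.En
import Crest.Agent.X261.Top.Defs

/-!
# Row 261, package Pole2 (helper32), file `Defs`: tubes

`TB A T π` : `π : T → ball 0 1` is a proper holomorphic submersion; `lift T π g = g ∘ π` on `T`;
`Vol H T π V` : the Monge-Ampere measure of `f ∘ π`; `FIN H T π y c` : a competitor of level `c`.
-/

set_option autoImplicit false
set_option linter.unusedSectionVars false

open Set Filter Topology Complex MeasureTheory Metric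
open scoped ContDiff Matrix ComplexConjugate ComplexOrder

namespace Crest.Agent.X261.Pole2

open Crest.Agent.R275.Geo
open Crest.Agent.R273.Hess_333 Crest.Agent.R273.HessB_333
open Crest.Agent.R281.Kp_487 (KP pot wt_contDiffAt)
open Crest.Agent.R281.ThnM_280 (Crit)
open Crest.Agent.R257.HoB_843 (lvE lvE_comp)
open Crest.Agent.R273.YauDefs_635 (inC)
open Crest.Agent.X261.BT Crest.Agent.X261.Top

noncomputable section

variable {n p : ℕ} {M : Type} [TopologicalSpace M] {A : Atl n M}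

/-- a tube: a proper holomorphic submersion onto the unit ball -/
structure TB (A : Atl n M) (T : Set M) (π : M → Cn p) : Prop where
  op : IsOpen T
  hol : HolV A T π
  cont : ContinuousOn π T
  subm : Crit A T π = ∅
  img : π '' T = ball 0 1
  prop : ∀ r < (1 : ℝ), IsCompact {y | y ∈ T ∧ ‖π y‖ ≤ r}

theorem tb_of_tube {G : Type} [Group G] [MulAction G M] (𝒯 : Tube A G p) {x : M}
    (hx : x ∈ 𝒯.M0) : TB A (𝒯.T x) (𝒯.π x) :=
  ⟨𝒯.T_opn x hx, 𝒯.π_hol x hx, 𝒯.π_cont x hx, 𝒯.π_subm x hx, 𝒯.π_img x hx, 𝒯.π_prop x hx⟩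

/-- `g ∘ π` on `T`, zero elsewhere -/
def lift (T : Set M) (π : M → Cn p) (g : Cn p → ℝ) : M → ℝ := T.indicator fun x => g (π x)

/-- a competitor with a pole of level `c` along the fibre over `y` -/
def FIN (H : KP A) (T : Set M) (π : M → Cn p) (y : Cn p) (c : ℝ) : Prop :=
  ∃ W : M → ℝ, PP H W ∧ (∀ x, W x ≤ 0) ∧ ∃ r₁ r₂ a : ℝ, 0 < r₁ ∧ r₁ < r₂ ∧ ‖y‖ + r₂ < 1 ∧
    (∀ x ∈ T, ‖π x - y‖ = r₁ → W x < a + c * Real.log (r₁ ^ 2)) ∧
    ∀ x ∈ T, ‖π x - y‖ = r₂ → a + c * Real.log (r₂ ^ 2) < W x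

/-- the homothety of ratio `e^{s/2}` -/
def sA (s : ℝ) : Cn p →L[ℂ] Cn p := ((Real.exp (s / 2) : ℝ) : ℂ) • ContinuousLinearMap.id ℂ (Cn p)

/-- the soft logarithm `≈ log (max ‖w - y‖² e^{-s})` -/
def Ls (s : ℝ) (y w : Cn p) : ℝ := ell (sA s (w - y)) - s

/-- the family of model competitors -/
structure VF (H : KP A) (T : Set M) (π : M → Cn p) (y : Cn p) (c : ℝ) (V : ℝ → M → ℝ)
    (r a s₀ : ℝ) (K : Set M) : Prop where
  r_pos : 0 < r
  r_lt : ‖y‖ + r < 1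
  s_nonneg : 0 ≤ s₀
  s_big : 2 * Real.exp (-s₀) < r ^ 2
  cpt : IsCompact K
  pp : ∀ s, s₀ ≤ s → PP H (V s)
  le : ∀ s, s₀ ≤ s → ∀ x, V s x ≤ 0
  off : ∀ s, s₀ ≤ s → ∀ x ∉ K, V s x = 0
  inn : ∀ s, s₀ ≤ s → ∀ x ∈ T, ‖π x - y‖ < r → V s x = a + c * Ls s y (π x)
  out : ∀ s, s₀ ≤ s → ∀ x, ¬ (x ∈ T ∧ ‖π x - y‖ < r) → V s x = V s₀ x

theorem sA_apply (s : ℝ) (w : Cn p) : sA s w = ((Real.exp (s / 2) : ℝ) : ℂ) • w := rfl

theorem nsq_sA (s : ℝ) (w : Cn p) : ‖sA s w‖ ^ 2 = Real.exp s * ‖w‖ ^ 2 := by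
  rw [sA_apply, norm_smul, mul_pow, Complex.norm_real, Real.norm_eq_abs, sq_abs, ← Real.exp_nat_mul]
  congr 2
  push_cast
  ring

theorem Ls_eq (s : ℝ) (y w : Cn p) : Ls s y w = Fm (Real.exp s * ‖w - y‖ ^ 2) - s := by
  rw [Ls, ell, nsq_sA]

theorem Ls_mdl (a c s : ℝ) (y w : Cn p) : a + c * Ls s y w = mdl c (sA s) y (a - c * s) w := by
  rw [Ls, mdl]; ring

theorem Ls_log {s : ℝ} {y w : Cn p} (h : 2 * Real.exp (-s) ≤ ‖w - y‖ ^ 2) :
    Ls s y w = Real.log (‖w - y‖ ^ 2) := by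
  have h1 : 0 < ‖w - y‖ ^ 2 := lt_of_lt_of_le (by positivity) h
  have h2 : 2 ≤ Real.exp s * ‖w - y‖ ^ 2 := by
    have := mul_le_mul_of_nonneg_left h (Real.exp_pos s).le
    rwa [mul_left_comm, ← Real.exp_add, add_neg_cancel, Real.exp_zero, mul_one] at this
  rw [Ls_eq, Fm_log h2, Real.log_mul (Real.exp_pos s).ne' h1.ne', Real.log_exp]
  ring

/-- `Ls` decreases in `s`, at speed at most one -/
theorem Ls_step {s t : ℝ} (h : s ≤ t) (y w : Cn p) :
    Ls t y w ≤ Ls s y w ∧ Ls s y w ≤ Ls t y w + (t - s) := by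
  have h1 := Fm_shift (sub_nonneg.2 h) (ρ := Real.exp s * ‖w - y‖ ^ 2) (by positivity)
  rw [← mul_assoc, ← Real.exp_add, sub_add_cancel] at h1
  rw [Ls_eq, Ls_eq]
  constructor <;> linarith [h1.1, h1.2]

/-- `Ls + s` is `log (max (e^s ‖w - y‖²) 1)` up to `log 2` -/
theorem Ls_bd (s : ℝ) (y w : Cn p) :
    Real.log (max (Real.exp s * ‖w - y‖ ^ 2) 1) ≤ Ls s y w + s ∧
      Ls s y w + s ≤ Real.log (max (Real.exp s * ‖w - y‖ ^ 2) 1) + Real.log 2 := by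
  rw [Ls_eq, sub_add_cancel]
  have h0 : 0 ≤ Real.log 2 := Real.log_nonneg one_le_two
  generalize Real.exp s * ‖w - y‖ ^ 2 = ρ
  have h1 : 0 ≤ Real.log (max ρ 1) := Real.log_nonneg (le_max_right _ _)
  constructor
  · rcases le_total ρ 1 with h | h
    · rw [max_eq_right h, Real.log_one]; exact Fm_nonneg ρ
    · rw [max_eq_left h]; exact log_le_Fm (by linarith)
  · rcases le_total ρ 2 with h | h
    · linarith [Fm_le h]
    · rw [Fm_log h, max_eq_left (by linarith)]; linarith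

variable {T : Set M} {π : M → Cn p} {f g : Cn p → ℝ} {x : M}

theorem lift_of_mem (hx : x ∈ T) : lift T π g x = g (π x) := indicator_of_mem hx _

theorem lift_of_not (hx : x ∉ T) : lift T π g x = 0 := indicator_of_notMem hx _

theorem lift_nonneg (h : ∀ w, 0 ≤ g w) (x : M) : 0 ≤ lift T π g x :=
  indicator_nonneg (fun _ _ => h _) x

namespace TB

theorem lt_one (h : TB A T π) (hx : x ∈ T) : ‖π x‖ < 1 :=
  mem_ball_zero_iff.1 (h.img ▸ mem_image_of_mem π hx)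

theorem surj (h : TB A T π) {w : Cn p} (hw : ‖w‖ < 1) : ∃ x ∈ T, π x = w := by
  have : w ∈ π '' T := h.img ▸ mem_ball_zero_iff.2 hw
  exact this

theorem isOpen_pre (h : TB A T π) {O : Set (Cn p)} (hO : IsOpen O) :
    IsOpen {x | x ∈ T ∧ π x ∈ O} := h.cont.isOpen_inter_preimage h.op hO

theorem cpt_pre (h : TB A T π) {K : Set (Cn p)} (hK : IsClosed K) {r : ℝ} (hr : r < 1)
    (hKr : ∀ w ∈ K, ‖w‖ ≤ r) : IsCompact {x | x ∈ T ∧ π x ∈ K} := by
  have h1 := h.prop r hr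
  have h2 : {x | x ∈ T ∧ π x ∈ K} = {y | y ∈ T ∧ ‖π y‖ ≤ r} ∩ π ⁻¹' K :=
    Set.ext fun x => ⟨fun hx => ⟨⟨hx.1, hKr _ hx.2⟩, hx.2⟩, fun hx => ⟨hx.1.1, hx.2⟩⟩
  rw [h2]
  obtain ⟨u, hu, he⟩ := continuousOn_iff_isClosed.1 (h.cont.mono fun y (hy : y ∈
    {y | y ∈ T ∧ ‖π y‖ ≤ r}) => hy.1) K hK
  rw [inter_comm, he, inter_comm]
  exact h1.inter_right hu

theorem cpt_ball (h : TB A T π) {y : Cn p} {r : ℝ} (hr : ‖y‖ + r < 1) :
    IsCompact {x | x ∈ T ∧ ‖π x - y‖ ≤ r} := by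
  have := h.cpt_pre (K := closedBall y r) isClosed_closedBall hr fun w hw => by
    have := norm_le_norm_add_norm_sub' w y
    rw [mem_closedBall_iff_norm] at hw
    linarith
  simpa only [mem_closedBall_iff_norm] using this

/-- `π` read in a chart -/
theorem an (h : TB A T π) (i : A.ι) {z : Cn n} (hz : z ∈ chU A T i) :
    AnalyticAt ℂ (fun z => π ((A.e i).symm z)) z :=
  Crest.Agent.R266.SCV.analyticOnNhd_of_differentiableOn (isOpen_chU h.op i) (h.hol i) z hz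

theorem sm (h : TB A T π) (hf : ContDiff ℝ ∞ f) (i : A.ι) {z : Cn n} (hz : z ∈ chU A T i) :
    ContDiffAt ℝ ∞ (inC A i fun x => f (π x)) z :=
  hf.contDiffAt.comp z (((h.an i hz).contDiffAt (n := ∞)).restrict_scalars ℝ)

theorem qp0 (h : TB A T π) (hf : Sp univ f) : QP (zr A) T fun x => f (π x) := by
  refine ⟨h.op, hf.1.continuous.comp_continuousOn h.cont, fun i =>
    PL.congr (isOpen_chU h.op i) (PL.of_lvE (isOpen_chU h.op i) (f := inC A i fun x => f (π x))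
      fun z hz => ⟨(h.sm hf.1 i hz).of_le (by norm_cast), fun v => ?_⟩) fun z _ => zero_add _⟩
  have := lvE_comp (u := f) (h.an i hz).contDiffAt (hf.1.contDiffAt.of_le (by norm_cast)) v
  exact this ▸ (psd_iff hf.1.contDiffAt).1 (hf.2 _ (mem_univ _)) _

theorem qp (h : TB A T π) {H : KP A} (hH : H.Semipos) (hf : Sp univ f) :
    QP H T fun x => f (π x) :=
  ((h.qp0 hf).ad_left hH).of_wt fun _ _ => (add_zero _).symm

theorem tst_lift [T2Space M] (h : TB A T π) (hg : Continuous g) {K : Set (Cn p)}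
    (hK : IsClosed K) {r : ℝ} (hr : r < 1) (hKr : ∀ w ∈ K, ‖w‖ ≤ r) (h0 : ∀ w ∉ K, g w = 0)
    {W : Set M} (hW : ∀ x ∈ T, π x ∈ K → x ∈ W) : Tst W (lift T π g) := by
  have hc := h.cpt_pre hK hr hKr
  have hz : ∀ x ∉ {x | x ∈ T ∧ π x ∈ K}, lift T π g x = 0 := fun x hx => by
    by_cases h1 : x ∈ T
    · rw [lift_of_mem h1, h0 _ fun h2 => hx ⟨h1, h2⟩]
    · exact lift_of_not h1
  refine Tst.of_cpt (continuous_iff_continuousAt.2 fun x => ?_) hc (fun x hx => hW x hx.1 hx.2) hz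
  by_cases h1 : x ∈ T
  · refine (hg.continuousAt.comp (h.cont.continuousAt (h.op.mem_nhds h1))).congr ?_
    exact eventually_of_mem (h.op.mem_nhds h1) fun y hy => (lift_of_mem hy).symm
  · refine continuousAt_const.congr (f := fun _ => (0 : ℝ)) ?_
    exact eventually_of_mem (hc.isClosed.isOpen_compl.mem_nhds fun h2 => h1 h2.1)
      fun y hy => (hz y hy).symm

theorem tst_lift' [T2Space M] (h : TB A T π) (hg : Continuous g) {r : ℝ} (hr : r < 1)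
    (h0 : ∀ w, r < ‖w‖ → g w = 0) : Tst T (lift T π g) :=
  h.tst_lift hg (K := closedBall 0 r) isClosed_closedBall hr
    (fun _ hw => mem_closedBall_zero_iff.1 hw)
    (fun w hw => h0 w (by rwa [mem_closedBall_zero_iff, not_le] at hw)) fun _ hx _ => hx

end TB

variable [MeasurableSpace M] [BorelSpace M] [Countable A.ι]

/-- the Monge-Ampere measure of `f ∘ π` pushes forward to `V mh f` up to lower order terms -/
def Vol (H : KP A) (T : Set M) (π : M → Cn p) (V : ℝ) : Prop :=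
  ∀ ρ < (1 : ℝ), ∃ C : ℝ, 0 ≤ C ∧ ∀ (U W : Set M) (u : M → ℝ) (f g Λ : Cn p → ℝ),
    QP H U u → IsOpen W → W ⊆ U ∩ T → (∀ x ∈ W, u x = f (π x)) → Sp univ f →
    Continuous Λ → (∀ w, 0 ≤ Λ w) → (∀ w v, lvE f w v ≤ Λ w * ‖v‖ ^ 2) →
    Continuous g → (∀ w, 0 ≤ g w) → (∀ w, ρ < ‖w‖ → g w = 0) →
    (∀ x ∈ T, π x ∈ tsupport g → x ∈ W) →
      V * ∫ w, g w * mh (fun _ => f) w ≤ ∫ x, lift T π g x ∂MAo H U u ∧
      ∫ x, lift T π g x ∂MAo H U u ≤
        V * (∫ w, g w * mh (fun _ => f) w) + C * ∫ w, g w * (1 + Λ w) ^ (p - 1)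

end

end Crest.Agent.X261.Pole2
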