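import Crest.Agent.X261.Pole2.Defs

/-!
# Row 261, package Pole2 (helper9), file `Glue`: the family of model competitors

From one competitor `FIN H T π y c` we glue the family `VF`.
-/

set_option autoImplicit false
set_option linter.unusedSectionVars false

open Set Filter Topology Complex MeasureTheory Metric

namespace Crest.Agent.X261.Pole2

open Crest.Agent.R275.Geo
open Crest.Agent.R281.Kp_487 (KP)
open Crest.Agent.X261.BT Crest.Agent.X261.Top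

noncomputable section

variable {n p : ℕ} {M : Type} [TopologicalSpace M] {A : Atl n M} {H : KP A} {T : Set M}

open Classical in
/-- `g` inside, `W` outside, the maximum in the shell -/
def shl (T : Set M) (N : M → ℝ) (r₁ r₂ : ℝ) (g W : M → ℝ) (x : M) : ℝ :=
  if x ∈ T ∧ N x < r₁ then g x else if x ∈ T ∧ N x < r₂ then max (g x) (W x) else W x

section shl

variable {N g g' W : M → ℝ} {r₁ r₂ : ℝ} {x : M}

theorem shl_in (h : x ∈ T ∧ N x < r₁) : shl T N r₁ r₂ g W x = g x := if_pos h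

theorem shl_mid (h : ¬ (x ∈ T ∧ N x < r₁)) (h' : x ∈ T ∧ N x < r₂) :
    shl T N r₁ r₂ g W x = max (g x) (W x) := by rw [shl, if_neg h, if_pos h']

theorem shl_out (hr : r₁ ≤ r₂) (h : ¬ (x ∈ T ∧ N x < r₂)) : shl T N r₁ r₂ g W x = W x := by
  rw [shl, if_neg fun h1 => h ⟨h1.1, h1.2.trans_le hr⟩, if_neg h]

theorem shl_of_lt (h : x ∈ T ∧ N x < r₂) (hW : W x ≤ g x) : shl T N r₁ r₂ g W x = g x := by
  by_cases h1 : x ∈ T ∧ N x < r₁
  · exact shl_in h1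
  · rw [shl_mid h1 h, max_eq_left hW]

theorem shl_of_gt (hr : r₁ ≤ r₂) (h : ¬ (x ∈ T ∧ N x < r₁)) (hW : g x ≤ W x) :
    shl T N r₁ r₂ g W x = W x := by
  by_cases h1 : x ∈ T ∧ N x < r₂
  · rw [shl_mid h h1, max_eq_right hW]
  · exact shl_out hr h1

theorem shl_le (hr : r₁ ≤ r₂) {b : ℝ} (hg : x ∈ T → N x < r₂ → g x ≤ b) (hW : W x ≤ b) :
    shl T N r₁ r₂ g W x ≤ b := by
  by_cases h2 : x ∈ T ∧ N x < r₂
  · by_cases h1 : x ∈ T ∧ N x < r₁
    · rw [shl_in h1]; exact hg h2.1 h2.2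
    · rw [shl_mid h1 h2]; exact max_le (hg h2.1 h2.2) hW
  · rw [shl_out hr h2]; exact hW

theorem shl_congr (hr : r₁ ≤ r₂) (h : ¬ (x ∈ T ∧ N x < r₁))
    (hg : x ∈ T → r₁ ≤ N x → g x = g' x) : shl T N r₁ r₂ g W x = shl T N r₁ r₂ g' W x := by
  by_cases h2 : x ∈ T ∧ N x < r₂
  · rw [shl_mid h h2, shl_mid h h2, hg h2.1 (not_lt.1 fun h1 => h ⟨h2.1, h1⟩)]
  · rw [shl_out hr h2, shl_out hr h2]

theorem qp_shl (hg : QP H T g) (hW : QP H univ W) (hN : ContinuousOn N T) (hr : r₁ < r₂)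
    (hL : IsClosed {x | x ∈ T ∧ N x ≤ r₂}) (h1 : ∀ x ∈ T, N x = r₁ → W x < g x)
    (h2 : ∀ x ∈ T, N x = r₂ → g x < W x) : QP H univ (shl T N r₁ r₂ g W) := by
  refine QP.of_germ isOpen_univ fun x _ => ?_
  by_cases hx : x ∈ T ∧ N x ≤ r₂
  swap
  · refine ⟨univ, W, mem_univ _, hW, ?_⟩
    filter_upwards [hL.isOpen_compl.mem_nhds hx] with z hz
    exact shl_out hr.le fun h => hz ⟨h.1, h.2.le⟩
  have hT := hg.op.mem_nhds hx.1
  have cN := hN.continuousAt hT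
  have cg := hg.cont.continuousAt hT
  have cW := hW.continuous.continuousAt (x := x)
  rcases lt_trichotomy (N x) r₁ with ha | ha | ha
  · refine ⟨T, g, hx.1, hg, ?_⟩
    filter_upwards [hT, cN.eventually_lt continuousAt_const ha] with z hz hz'
    exact shl_in ⟨hz, hz'⟩
  · refine ⟨T, g, hx.1, hg, ?_⟩
    filter_upwards [hT, cN.eventually_lt continuousAt_const (ha.trans_lt hr),
      cW.eventually_lt cg (h1 x hx.1 ha)] with z hz hz' hz''
    exact shl_of_lt ⟨hz, hz'⟩ hz''.le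
  have hb := continuousAt_const.eventually_lt cN ha
  rcases hx.2.lt_or_eq with hc | hc
  · refine ⟨T, fun z => max (g z) (W z), hx.1, hg.max (hW.mono hg.op (subset_univ _)), ?_⟩
    filter_upwards [hT, hb, cN.eventually_lt continuousAt_const hc] with z hz hz' hz''
    exact shl_mid (fun h => (h.2.trans hz').false) ⟨hz, hz''⟩
  · refine ⟨univ, W, mem_univ _, hW, ?_⟩
    filter_upwards [hb, cg.eventually_lt cW (h2 x hx.1 hc)] with z hz hz'
    exact shl_of_gt hr.le (fun h => (h.2.trans hz).false) hz'.le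

end shl

theorem Ls_mono (s : ℝ) {y w w' : Cn p} (h : ‖w - y‖ ≤ ‖w' - y‖) : Ls s y w ≤ Ls s y w' := by
  rw [Ls_eq, Ls_eq]
  exact sub_le_sub_right (Fm_mono (mul_le_mul_of_nonneg_left
    (pow_le_pow_left₀ (norm_nonneg _) h 2) (Real.exp_pos s).le)) s

theorem exists_sphere (hp : 1 ≤ p) (y : Cn p) {r : ℝ} (hr : 0 ≤ r) : ∃ w : Cn p, ‖w - y‖ = r := by
  refine ⟨y + EuclideanSpace.single (⟨0, hp⟩ : Fin p) (r : ℂ), ?_⟩
  rw [add_sub_cancel_left, PiLp.norm_single, Complex.norm_real, Real.norm_of_nonneg hr]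

theorem exists_s0 {r : ℝ} (hr : 0 < r) : ∃ s₀ : ℝ, 0 ≤ s₀ ∧ 2 * Real.exp (-s₀) < r ^ 2 := by
  have h1 : Tendsto (fun s : ℝ => 2 * Real.exp (-s)) atTop (𝓝 (2 * 0)) :=
    Real.tendsto_exp_neg_atTop_nhds_zero.const_mul 2
  rw [mul_zero] at h1
  exact ((eventually_ge_atTop 0).and (h1.eventually_lt_const (pow_pos hr 2))).exists

variable {π : M → Cn p} {y : Cn p} {c : ℝ}

theorem TB.qp_Ls (h : TB A T π) (hH : H.Semipos) (hc : 0 ≤ c) (a s : ℝ) (y : Cn p) :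
    QP H T fun x => a + c * Ls s y (π x) :=
  (h.qp hH (sp_mdl (sA s) y (a - c * s) hc)).congr fun x _ => Ls_mdl a c s y (π x)

theorem FIN.exists_vf [T2Space M] (hH : H.Semipos) (h : TB A T π) (hp : 1 ≤ p) (hc : 0 ≤ c)
    (hF : FIN H T π y c) : ∃ V r a s0 K, VF H T π y c V r a s0 K := by
  obtain ⟨W, hW, hW0, r₁, r₂, a, hr₁, hr, hy, h1, h2⟩ := hF
  obtain ⟨s₀, hs₀, hs⟩ := exists_s0 hr₁
  obtain ⟨K, hK, hK0⟩ := hW.ce.exists_cpt
  have hL := h.cpt_ball hy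
  have hlog : ∀ s, s₀ ≤ s → ∀ w : Cn p, r₁ ≤ ‖w - y‖ → Ls s y w = Real.log (‖w - y‖ ^ 2) :=
    fun s hs' w hw => Ls_log <| by
      have h3 := Real.exp_le_exp.2 (neg_le_neg hs')
      have h4 := pow_le_pow_left₀ hr₁.le hw 2
      linarith
  have hoff : ∀ g : M → ℝ, ∀ x ∉ K ∪ {x | x ∈ T ∧ ‖π x - y‖ ≤ r₂},
      shl T (fun x => ‖π x - y‖) r₁ r₂ g W x = 0 := fun g x hx => by
    rw [shl_out hr.le fun h3 => hx (Or.inr ⟨h3.1, h3.2.le⟩), hK0 x fun h3 => hx (Or.inl h3)]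
  refine ⟨fun s => shl T (fun x => ‖π x - y‖) r₁ r₂ (fun x => a + c * Ls s y (π x)) W, r₁, a, s₀,
    K ∪ {x | x ∈ T ∧ ‖π x - y‖ ≤ r₂}, hr₁, by linarith, hs₀, hs, hK.union hL, fun s hs' => ?_,
    fun s hs' x => ?_, fun s _ => hoff _, fun s _ x hx hx' => shl_in ⟨hx, hx'⟩,
    fun s hs' x hx => shl_congr hr.le hx fun _ h3 => ?_⟩
  · refine ⟨qp_shl (h.qp_Ls hH hc a s y) hW.qp (h.cont.sub continuousOn_const).norm hr
      hL.isClosed (fun x hx h3 => ?_) fun x hx h3 => ?_,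
      CE.zero_iff.1 (CE.of_cpt (hK.union hL) (hoff _))⟩
    · rw [hlog s hs' _ h3.ge, h3]; exact h1 x hx h3
    · rw [hlog s hs' _ (hr.le.trans h3.ge), h3]; exact h2 x hx h3
  · refine shl_le hr.le (fun _ h3 => ?_) (hW0 x)
    obtain ⟨w, hw⟩ := exists_sphere hp y (hr₁.trans hr).le
    obtain ⟨x₀, hx₀, rfl⟩ := h.surj (w := w) (by linarith [norm_le_norm_add_norm_sub' w y])
    have h4 := mul_le_mul_of_nonneg_left (Ls_mono s (y := y) (w := π x) (h3.le.trans hw.ge)) hc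
    rw [hlog s hs' _ (hr.le.trans hw.ge), hw] at h4
    linarith [h2 x₀ hx₀ hw, hW0 x₀]
  · rw [hlog s hs' _ h3, hlog s₀ le_rfl _ h3]

end

end Crest.Agent.X261.Pole2
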