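import Crest.Agent.X261.Pole2.Asy0
import Crest.Agent.X261.Pole2.Ene

/-!
# Row 261, package Pole2, file `Asy`: asymptotics of the depth functional
-/

set_option autoImplicit false
set_option linter.unusedSectionVars false

open Set Filter Topology MeasureTheory Metric

namespace Crest.Agent.X261.Pole2

open Crest.Agent.R275.Geo
open Crest.Agent.R281.Kp_487 (KP)
open Crest.Agent.X261.BT

variable {n p : ℕ} {M : Type} [TopologicalSpace M] {A : Atl n M} {H : KP A} {T : Set M}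
  {π : M → Cn p} {y : Cn p} {V : ℝ} [MeasurableSpace M] [BorelSpace M] [Countable A.ι] [T2Space M]

theorem asym (hH : H.Pos) (hS : Slow H) (h : TB A T π) (hp : 1 ≤ p) (hV : Vol H T π V)
    (hy : ∀ c > 0, FIN H T π y c) (F : ℝ → ℝ → Set (M → ℝ)) {C₀ r₀ s₁ : ℝ} (hr : 0 < r₀)
    (F2 : ∀ s ≥ s₁, ∀ h ≥ 0, ∀ f : M → ℝ,
      (∀ x ∈ T, ‖π x - y‖ ^ 2 ≤ Real.exp (C₀ - s) → f x ≤ -h - C₀) → f ∈ F s h)
    (F3 : ∀ s ≥ s₁, ∀ h ≥ 0, ∀ f : M → ℝ, PP H f → (∀ x, f x ≤ 0) → f ∈ F s h →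
      ∀ x ∈ T, ‖π x - y‖ ≤ r₀ → f x ≤ -h + C₀ +
        h / (s - C₀) * Real.log (max (Real.exp (s + C₀) * ‖π x - y‖ ^ 2) 1))
    (c₁ : ℝ) : ∃ C s₂ : ℝ, ∀ s ≥ s₂, ∀ h, 0 ≤ h → h ≤ c₁ * s →
      |(lsOf hH hS).dp (F s h) 0 - V * k1 p * h ^ (p + 1) / s ^ p| ≤ C :=
  asym_of hH hS (mul_nonneg (hV.nonneg (pos_semi hH) h hp) (k1_pos hp).le)
    (fun c hc => let ⟨W, r, a, s₀, K, hF⟩ := (hy c hc).exists_vf (pos_semi hH) h hp hc.le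
      ⟨W, r, a, s₀, K, hF, hF.energy hH h hp hV hc.le⟩) F hr F2 F3 c₁

end Crest.Agent.X261.Pole2
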