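import Mathlib

/-!
# Row 261, package Pole2 (helper32), file `One`: the one variable profile of the radial model

`gT` : smooth monotone, `0` on `(-∞,1]`, `1` on `[2,∞)`; `g1 τ = gT τ / τ`;
`Fm` : primitive of `g1`, equal to `log` on `[2,∞)`, constant on `(-∞,1]`.
`subdiv` : a telescoping lemma.
-/

set_option autoImplicit false

open Set Filter Topology MeasureTheory
open scoped ContDiff

namespace Crest.Agent.X261.Pole2

noncomputable section

/-- the cut-off -/
def gT (τ : ℝ) : ℝ := Real.smoothTransition (τ - 1)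

/-- derivative of the cut-off -/
def g2 (τ : ℝ) : ℝ := deriv gT τ

/-- derivative of the profile -/
def g1 (τ : ℝ) : ℝ := gT τ / τ

/-- second derivative of the profile -/
def g3 (τ : ℝ) : ℝ := deriv g1 τ

/-- the profile -/
def Fm (ρ : ℝ) : ℝ := Real.log 2 + ∫ τ in (2 : ℝ)..ρ, g1 τ

theorem gT_smooth : ContDiff ℝ ∞ gT :=
  Real.smoothTransition.contDiff.comp (contDiff_id.sub contDiff_const)

theorem gT_zero {τ : ℝ} (h : τ ≤ 1) : gT τ = 0 :=
  Real.smoothTransition.zero_of_nonpos (by linarith)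

theorem gT_one {τ : ℝ} (h : 2 ≤ τ) : gT τ = 1 :=
  Real.smoothTransition.one_of_one_le (by linarith)

theorem gT_nonneg (τ : ℝ) : 0 ≤ gT τ := Real.smoothTransition.nonneg _

theorem gT_le_one (τ : ℝ) : gT τ ≤ 1 := Real.smoothTransition.le_one _

theorem gT_pos {τ : ℝ} (h : 1 < τ) : 0 < gT τ := Real.smoothTransition.pos_of_pos (by linarith)

theorem gT_mono : Monotone gT := fun _ _ h => Real.smoothTransition.monotone (by linarith)

theorem gT_deriv (τ : ℝ) : HasDerivAt gT (g2 τ) τ :=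
  (gT_smooth.differentiable (by simp) τ).hasDerivAt

theorem g2_smooth : ContDiff ℝ ∞ g2 := (contDiff_infty_iff_deriv.1 gT_smooth).2

theorem g2_nonneg (τ : ℝ) : 0 ≤ g2 τ := gT_mono.deriv_nonneg

theorem g2_zero_of_gt {τ : ℝ} (h : 2 < τ) : g2 τ = 0 := by
  have : gT =ᶠ[𝓝 τ] fun _ => 1 := (eventually_gt_nhds h).mono fun _ hx => gT_one hx.le
  rw [g2, this.deriv_eq, deriv_const]

theorem g2_zero_of_le {τ : ℝ} (h : τ ≤ 1) : g2 τ = 0 :=
  IsLocalMin.deriv_eq_zero (Eventually.of_forall fun x => by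
    rw [gT_zero h]; exact gT_nonneg x)

theorem g2_zero_of_ge {τ : ℝ} (h : 2 ≤ τ) : g2 τ = 0 :=
  IsLocalMax.deriv_eq_zero (Eventually.of_forall fun x => by
    rw [gT_one h]; exact gT_le_one x)

theorem g1_zero {τ : ℝ} (h : τ ≤ 1) : g1 τ = 0 := by rw [g1, gT_zero h, zero_div]

theorem g1_smooth : ContDiff ℝ ∞ g1 := by
  refine contDiff_iff_contDiffAt.2 fun τ => ?_
  rcases lt_or_ge τ 1 with h | h
  · refine (contDiffAt_const (c := (0 : ℝ))).congr_of_eventuallyEq ?_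
    exact (eventually_lt_nhds h).mono fun _ hx => g1_zero hx.le
  · exact gT_smooth.contDiffAt.div contDiffAt_id (by linarith)

theorem g1_nonneg (τ : ℝ) : 0 ≤ g1 τ := by
  rcases le_or_gt τ 1 with h | h
  · rw [g1_zero h]
  · exact div_nonneg (gT_nonneg τ) (by linarith)

theorem g1_mul (τ : ℝ) : g1 τ * τ = gT τ := by
  rcases le_or_gt τ 1 with h | h
  · rw [g1_zero h, gT_zero h, zero_mul]
  · exact div_mul_cancel₀ _ (by linarith)

theorem g1_le (τ : ℝ) : g1 τ ≤ 1 / max τ 1 := by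
  rcases le_or_gt τ 1 with h | h
  · rw [g1_zero h]; positivity
  · rw [max_eq_left h.le]
    exact div_le_div_of_nonneg_right (gT_le_one τ) (by linarith)

theorem g1_le_one (τ : ℝ) : g1 τ ≤ 1 :=
  (g1_le τ).trans (div_le_one_of_le₀ (le_max_right _ _) (by positivity))

theorem g1_deriv (τ : ℝ) : HasDerivAt g1 (g3 τ) τ :=
  (g1_smooth.differentiable (by simp) τ).hasDerivAt

theorem g3_smooth : ContDiff ℝ ∞ g3 := (contDiff_infty_iff_deriv.1 g1_smooth).2

theorem g1_add (τ : ℝ) : g1 τ + g3 τ * τ = g2 τ := by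
  have h1 := (g1_deriv τ).mul (hasDerivAt_id τ)
  have h2 : (g1 * id) = gT := funext fun x => g1_mul x
  rw [h2] at h1
  have := h1.unique (gT_deriv τ)
  simp only [id, mul_one] at this
  linarith

theorem g3_zero {τ : ℝ} (h : τ ≤ 1) : g3 τ = 0 :=
  IsLocalMin.deriv_eq_zero (Eventually.of_forall fun x => by
    rw [g1_zero h]; exact g1_nonneg x)

theorem exists_g2_bd : ∃ L : ℝ, 1 ≤ L ∧ ∀ τ, g2 τ ≤ L / max τ 1 := by
  obtain ⟨C, hC⟩ := (isCompact_Icc (a := (1 : ℝ)) (b := 2)).exists_bound_of_continuousOn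
    g2_smooth.continuous.continuousOn
  refine ⟨max 1 (2 * C), le_max_left _ _, fun τ => ?_⟩
  have h0 : 0 ≤ max 1 (2 * C) / max τ 1 := by positivity
  rcases le_or_gt τ 1 with h | h
  · rwa [g2_zero_of_le h]
  rcases le_or_gt 2 τ with h' | h'
  · rwa [g2_zero_of_ge h']
  have h1 := (le_abs_self _).trans (hC τ ⟨h.le, h'.le⟩)
  have h2 := g2_nonneg τ
  rw [max_eq_left h.le, le_div_iff₀ (by linarith)]
  have := le_max_right 1 (2 * C)
  nlinarith

/-- a bound for `g2` -/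
def L0 : ℝ := exists_g2_bd.choose

theorem one_le_L0 : 1 ≤ L0 := exists_g2_bd.choose_spec.1

theorem g2_le (τ : ℝ) : g2 τ ≤ L0 / max τ 1 := exists_g2_bd.choose_spec.2 τ

theorem g3_le (τ : ℝ) : g3 τ ≤ L0 := by
  have h0 := one_le_L0
  rcases le_or_gt τ 1 with h | h
  · rw [g3_zero h]; linarith
  have h1 := g1_add τ
  have h2 := (g2_le τ).trans (div_le_self (by linarith) (le_max_right τ 1))
  have h3 := g1_nonneg τ
  by_contra h4
  push Not at h4
  nlinarith

theorem Fm_deriv (ρ : ℝ) : HasDerivAt Fm (g1 ρ) ρ :=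
  (intervalIntegral.integral_hasDerivAt_right (g1_smooth.continuous.intervalIntegrable _ _)
    (g1_smooth.continuous.stronglyMeasurableAtFilter _ _)
    g1_smooth.continuous.continuousAt).const_add _

theorem Fm_smooth : ContDiff ℝ ∞ Fm := by
  refine contDiff_infty_iff_deriv.2 ⟨fun ρ => (Fm_deriv ρ).differentiableAt, ?_⟩
  rw [show deriv Fm = g1 from funext fun ρ => (Fm_deriv ρ).deriv]
  exact g1_smooth

theorem Fm_mono : Monotone Fm :=
  monotone_of_deriv_nonneg (fun ρ => (Fm_deriv ρ).differentiableAt) fun ρ => by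
    rw [(Fm_deriv ρ).deriv]; exact g1_nonneg ρ

theorem Fm_two : Fm 2 = Real.log 2 := by simp [Fm]

theorem Fm_sub_anti : AntitoneOn (fun ρ => Fm ρ - Real.log ρ) (Ioi 0) := by
  have hd : ∀ ρ ∈ Ioi (0 : ℝ), HasDerivAt (fun ρ => Fm ρ - Real.log ρ) (g1 ρ - ρ⁻¹) ρ :=
    fun ρ hρ => (Fm_deriv ρ).sub (Real.hasDerivAt_log (ne_of_gt hρ))
  refine antitoneOn_of_deriv_nonpos (convex_Ioi 0)
    (fun ρ hρ => (hd ρ hρ).continuousAt.continuousWithinAt) (fun ρ hρ => ?_) fun ρ hρ => ?_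
  · rw [interior_Ioi] at hρ; exact (hd ρ hρ).differentiableAt.differentiableWithinAt
  · rw [interior_Ioi] at hρ
    rw [(hd ρ hρ).deriv, g1, sub_nonpos, ← one_div]
    exact div_le_div_of_nonneg_right (gT_le_one ρ) (le_of_lt hρ)

theorem Fm_log {ρ : ℝ} (h : 2 ≤ ρ) : Fm ρ = Real.log ρ := by
  have h1 : ∫ τ in (2 : ℝ)..ρ, g1 τ = ∫ τ in (2 : ℝ)..ρ, τ⁻¹ :=
    intervalIntegral.integral_congr fun τ hτ => by
      rw [uIcc_of_le h] at hτ
      rw [g1, gT_one hτ.1, one_div]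
  rw [Fm, h1, integral_inv_of_pos two_pos (by linarith), Real.log_div (by linarith) two_ne_zero]
  ring

theorem log_le_Fm {ρ : ℝ} (h : 0 < ρ) : Real.log ρ ≤ Fm ρ := by
  rcases le_total 2 ρ with h2 | h2
  · exact (Fm_log h2).ge
  · have := Fm_sub_anti (mem_Ioi.2 h) (mem_Ioi.2 two_pos) h2
    simp only [Fm_two, sub_self] at this
    linarith

theorem Fm_le {ρ : ℝ} (h : ρ ≤ 2) : Fm ρ ≤ Real.log 2 := Fm_two ▸ Fm_mono h

theorem Fm_const {ρ : ℝ} (h : ρ ≤ 1) : Fm ρ = Fm 1 := by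
  have h1 : ∫ τ in ρ..1, g1 τ = 0 := by
    rw [intervalIntegral.integral_congr (g := fun _ => (0 : ℝ)) fun τ hτ => by
      rw [uIcc_of_le h] at hτ; exact g1_zero hτ.2]
    simp
  have h2 := intervalIntegral.integral_add_adjacent_intervals
    (g1_smooth.continuous.intervalIntegrable (μ := volume) 2 ρ)
    (g1_smooth.continuous.intervalIntegrable ρ 1)
  rw [Fm, Fm, ← h2, h1, add_zero]

theorem Fm_nonneg (ρ : ℝ) : 0 ≤ Fm ρ := by
  have h1 : 0 ≤ Fm 1 := by simpa using log_le_Fm one_pos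
  rcases le_total ρ 1 with h | h
  · rwa [Fm_const h]
  · exact h1.trans (Fm_mono h)

theorem Fm_le_max (ρ : ℝ) : Fm ρ ≤ max (Real.log ρ) (Real.log 2) := by
  rcases le_total 2 ρ with h | h
  · rw [Fm_log h]; exact le_max_left _ _
  · exact (Fm_le h).trans (le_max_right _ _)

/-- Taylor bound -/
theorem Fm_taylor (ρ ρ' : ℝ) : Fm ρ' - Fm ρ ≤ g1 ρ * (ρ' - ρ) + L0 * (ρ' - ρ) ^ 2 := by
  have hL := one_le_L0
  have ha : Antitone fun x => g1 x - L0 * x :=
    antitone_of_deriv_nonpos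
      (fun x => ((g1_deriv x).sub ((hasDerivAt_id x).const_mul L0)).differentiableAt) fun x => by
        have h1 : HasDerivAt (fun x => g1 x - L0 * x) (g3 x - L0 * 1) x :=
          (g1_deriv x).sub ((hasDerivAt_id x).const_mul L0)
        rw [h1.deriv]; linarith [g3_le x]
  rcases lt_trichotomy ρ ρ' with h | h | h
  · obtain ⟨ξ, hξ, h1⟩ := exists_hasDerivAt_eq_slope Fm g1 h
      Fm_smooth.continuous.continuousOn fun x _ => Fm_deriv x
    rw [eq_div_iff (by linarith)] at h1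
    have h2 := ha hξ.1.le
    have h3 : g1 ξ ≤ g1 ρ + L0 * (ρ' - ρ) := by nlinarith [hξ.2]
    nlinarith
  · simp [h]
  · obtain ⟨ξ, hξ, h1⟩ := exists_hasDerivAt_eq_slope Fm g1 h
      Fm_smooth.continuous.continuousOn fun x _ => Fm_deriv x
    rw [eq_div_iff (by linarith)] at h1
    have h2 := ha hξ.2.le
    have h3 : g1 ρ ≤ g1 ξ + L0 * (ρ - ρ') := by nlinarith [hξ.1]
    nlinarith

/-- `Fm (e^h ρ) - h` decreases in `h`, at speed at most one -/
theorem Fm_shift {h : ℝ} (hh : 0 ≤ h) {ρ : ℝ} (hρ : 0 ≤ ρ) :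
    Fm (Real.exp h * ρ) - h ≤ Fm ρ ∧ Fm ρ ≤ Fm (Real.exp h * ρ) := by
  have h1 : ρ ≤ Real.exp h * ρ := le_mul_of_one_le_left hρ (Real.one_le_exp hh)
  refine ⟨?_, Fm_mono h1⟩
  rcases hρ.eq_or_lt with rfl | h0
  · rw [mul_zero]; linarith
  have := Fm_sub_anti (mem_Ioi.2 h0) (mem_Ioi.2 (h0.trans_le h1)) h1
  simp only [Real.log_mul (Real.exp_pos h).ne' h0.ne', Real.log_exp] at this
  linarith

/-- telescoping -/
theorem subdiv {F : ℝ → ℝ} {a b C : ℝ} (hab : a ≤ b)
    (h : ∀ s t, a ≤ s → s ≤ t → t ≤ b → t - s ≤ 1 → F t - F s ≤ C * (t - s) ^ 2) : F b ≤ F a := by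
  have key : ∀ N : ℕ, 0 < N → b - a ≤ N → F b - F a ≤ C * (b - a) ^ 2 / N := by
    intro N hN hb
    have hN' : (0 : ℝ) < N := by exact_mod_cast hN
    set d := (b - a) / N with hd
    have hd0 : 0 ≤ d := div_nonneg (by linarith) hN'.le
    have hd1 : d ≤ 1 := div_le_one_of_le₀ hb hN'.le
    have hNd : N * d = b - a := by rw [hd]; field_simp
    have h1 : ∀ k : ℕ, k ≤ N → F (a + k * d) - F a ≤ k * (C * d ^ 2) := by
      intro k
      induction k with
      | zero => simp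
      | succ k ih =>
        intro hk
        have h2 := ih (by omega)
        have hk' : ((k : ℝ) + 1) ≤ N := by exact_mod_cast hk
        have h3 := h (a + k * d) (a + (k + 1) * d) (by nlinarith [Nat.cast_nonneg (α := ℝ) k])
          (by nlinarith) (by nlinarith) (by nlinarith)
        rw [show a + (k + 1) * d - (a + k * d) = d by ring] at h3
        push_cast
        linarith
    have h2 := h1 N le_rfl
    rw [hNd, add_sub_cancel] at h2
    refine h2.trans (le_of_eq ?_)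
    rw [hd]; field_simp
  have h1 : Tendsto (fun N : ℕ => C * (b - a) ^ 2 / N) atTop (𝓝 0) :=
    tendsto_const_div_atTop_nhds_zero_nat _
  have h2 : F b - F a ≤ 0 := ge_of_tendsto h1 (by
    filter_upwards [eventually_gt_atTop 0,
      tendsto_natCast_atTop_atTop.eventually_ge_atTop (b - a)] with N h3 h4 using key N h3 h4)
  linarith

end

end Crest.Agent.X261.Pole2
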